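import Vale.Agent.P101.H574.Main

/-! Homs from dimension drop algebras to `(A_ω ∩ C')^G`, and characters. -/

open Filter Topology TopologicalSpace

namespace Vale.Agent.P101.H574

open SeqQuot H413

universe u v

variable {C : Type u} [CStarAlgebra C] {G : Type v} [Group G]

theorem fixedDimDropMaps_of_hom (α : G →* (C ≃⋆ₐ[ℂ] C)) (A : StarSubalgebra ℂ C)
    [hA : IsClosed (A : Set C)] (ω : Filter ℕ) (p q : ℕ)
    (φ : dimDrop p q →⋆ₐ[ℂ] Rq Set.univ A (fun g => α g) ω) : FixedDimDropMaps α A ω p q := by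
  choose r hr using Rq.mk_surjective (S := Set.univ) (D := A) (β := fun g => α g) ω
  have key : ∀ x y : relSeq Set.univ A (fun g => α g) ω, Rq.mk ω x = Rq.mk ω y →
      Tendsto (fun n => ‖(x : ℕ → C) n - (y : ℕ → C) n‖) ω (𝓝 0) :=
    fun x y h => (Rq.mk_eq_iff ω x y).1 h
  have hfix : ∀ f, IsFixedCentral α A ω (r (φ f) : ℕ → C) := fun f =>
    (isFixedCentral_iff α A ω _).2 (r (φ f)).2
  refine ⟨⟨dimDrop p q, fun f => (r (φ f) : ℕ → C), fun f => Iff.rfl, ?_, hfix⟩⟩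
  refine ⟨fun f => (hfix f).central, ?_, ?_, ?_, ?_, ?_⟩
  · refine key (r (φ 1)) 1 ?_
    rw [hr, map_one]; rfl
  · intro f g
    refine key (r (φ (f + g))) (r (φ f) + r (φ g)) ?_
    rw [Rq.mk_add, hr, hr, hr, map_add]
  · intro f g
    refine key (r (φ (f * g))) (r (φ f) * r (φ g)) ?_
    rw [Rq.mk_mul, hr, hr, hr, map_mul]
  · intro c f
    refine key (r (φ (c • f))) (c • r (φ f)) ?_
    have h : Rq.mk ω (c • r (φ f)) = c • Rq.mk ω (r (φ f)) := rfl
    rw [h, hr, hr, map_smul]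
  · intro f
    refine key (r (φ (star f))) (star (r (φ f))) ?_
    rw [Rq.mk_star, hr, hr, map_star]

theorem fixedCongr {α : G →* (C ≃⋆ₐ[ℂ] C)} {A : StarSubalgebra ℂ C} {ω : Filter ℕ}
    {χ : (ℕ → C) → ℂ} (hχ : IsFixedCharacter α A ω χ) {x y : ℕ → C}
    (hx : IsFixedCentral α A ω x) (hy : IsFixedCentral α A ω y)
    (h : Tendsto (fun n => ‖x n - y n‖) ω (𝓝 0)) : χ x = χ y := by
  have hd : IsFixedCentral α A ω (x - y) :=
    (isFixedCentral_iff α A ω _).2 (sub_mem ((isFixedCentral_iff α A ω _).1 hx)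
      ((isFixedCentral_iff α A ω _).1 hy))
  have h0 := hχ.null (x - y) hd h
  have h1 := hχ.add (x - y) y hd hy
  rw [sub_add_cancel, h0, zero_add] at h1
  exact h1

theorem not_char_of_fixedDimDropMaps {α : G →* (C ≃⋆ₐ[ℂ] C)} {A : StarSubalgebra ℂ C}
    {ω : Filter ℕ} (h : FixedDimDropMaps α A ω 2 3) :
    ¬ ∃ χ : (ℕ → C) → ℂ, IsFixedCharacter α A ω χ := by
  rintro ⟨χ, hχ⟩
  obtain ⟨S, Φ, hS, hΦ, hfix⟩ := h.hom
  have hS' : S = dimDrop 2 3 := by
    ext f
    rw [hS f]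
    rfl
  subst hS'
  have c : ∀ {x : ℕ → C}, x ∈ relSeq Set.univ A (fun g => α g) ω → IsFixedCentral α A ω x :=
    fun h => (isFixedCentral_iff α A ω _).2 h
  have c' : ∀ {x : ℕ → C}, IsFixedCentral α A ω x → x ∈ relSeq Set.univ A (fun g => α g) ω :=
    fun h => (isFixedCentral_iff α A ω _).1 h
  have hone : χ (Φ 1) = 1 := by
    rw [fixedCongr hχ (hfix 1) (c (one_mem _)) (y := 1) hΦ.one, hχ.one]
  have hadd : ∀ f g, χ (Φ (f + g)) = χ (Φ f) + χ (Φ g) := fun f g => by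
    rw [fixedCongr hχ (hfix (f + g)) (c (add_mem (c' (hfix f)) (c' (hfix g))))
      (hΦ.add f g), hχ.add _ _ (hfix f) (hfix g)]
  have hmul : ∀ f g, χ (Φ (f * g)) = χ (Φ f) * χ (Φ g) := fun f g => by
    rw [fixedCongr hχ (hfix (f * g)) (c (mul_mem (c' (hfix f)) (c' (hfix g))))
      (hΦ.mul f g), hχ.mul _ _ (hfix f) (hfix g)]
  have hsmul : ∀ (a : ℂ) f, χ (Φ (a • f)) = a * χ (Φ f) := fun a f => by
    rw [fixedCongr hχ (hfix (a • f))
      (c ((relSeq Set.univ A (fun g => α g) ω).smul_mem (c' (hfix f)) a))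
      (hΦ.smul a f), hχ.smul _ _ (hfix f)]
  have hstar : ∀ f, χ (Φ (star f)) = star (χ (Φ f)) := fun f => by
    rw [fixedCongr hχ (hfix (star f)) (c (star_mem (c' (hfix f)))) (hΦ.star f),
      hχ.star _ (hfix f)]
  have hzero : χ (Φ 0) = 0 := by
    have := hsmul 0 0
    rwa [zero_smul, zero_mul] at this
  refine (NoChar.isEmpty 2 3 le_rfl (by norm_num)).false
    { toFun := fun f => χ (Φ f)
      map_one' := hone
      map_mul' := hmul
      map_zero' := hzero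
      map_add' := hadd
      commutes' := fun a => ?_
      map_star' := hstar }
  rw [Algebra.algebraMap_eq_smul_one, hsmul, hone, mul_one]
  rfl

end Vale.Agent.P101.H574
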