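import Vale.Agent.P101.H574.Defs
import Vale.Agent.P101.H413.Nonsep

/-! Algebras generated by an image of `A` and unitaries implementing an action. -/

open Filter Topology TopologicalSpace

namespace Vale.Agent.P101.H574

universe u v

variable {A E : Type u} [CStarAlgebra A] [CStarAlgebra E]

/-- The elements commuting asymptotically with a bounded sequence and its adjoint. -/
def asymComm (ω : Filter ℕ) (y : ℕ → E) : StarSubalgebra ℂ E where
  carrier := {e | Tendsto (fun n => ‖y n * e - e * y n‖) ω (𝓝 0) ∧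
    Tendsto (fun n => ‖star (y n) * e - e * star (y n)‖) ω (𝓝 0)}
  mul_mem' := by
    have key : ∀ (z : ℕ → E) (a b : E), Tendsto (fun n => ‖z n * a - a * z n‖) ω (𝓝 0) →
        Tendsto (fun n => ‖z n * b - b * z n‖) ω (𝓝 0) →
        Tendsto (fun n => ‖z n * (a * b) - (a * b) * z n‖) ω (𝓝 0) := by
      intro z a b ha hb
      have h := (ha.mul_const ‖b‖).add (hb.const_mul ‖a‖)
      rw [zero_mul, mul_zero, add_zero] at h
      refine squeeze_zero (fun n => norm_nonneg _) (fun n => ?_) h
      have : z n * (a * b) - (a * b) * z n =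
          (z n * a - a * z n) * b + a * (z n * b - b * z n) := by noncomm_ring
      rw [this]
      exact (norm_add_le _ _).trans (add_le_add (norm_mul_le _ _) (norm_mul_le _ _))
    intro a b ha hb
    exact ⟨key _ a b ha.1 hb.1, key _ a b ha.2 hb.2⟩
  add_mem' := by
    have key : ∀ (z : ℕ → E) (a b : E), Tendsto (fun n => ‖z n * a - a * z n‖) ω (𝓝 0) →
        Tendsto (fun n => ‖z n * b - b * z n‖) ω (𝓝 0) →
        Tendsto (fun n => ‖z n * (a + b) - (a + b) * z n‖) ω (𝓝 0) := by
      intro z a b ha hb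
      have h := ha.add hb
      rw [add_zero] at h
      refine squeeze_zero (fun n => norm_nonneg _) (fun n => ?_) h
      have : z n * (a + b) - (a + b) * z n =
          (z n * a - a * z n) + (z n * b - b * z n) := by noncomm_ring
      rw [this]
      exact norm_add_le _ _
    intro a b ha hb
    exact ⟨key _ a b ha.1 hb.1, key _ a b ha.2 hb.2⟩
  algebraMap_mem' := by
    intro c
    have key : ∀ z : ℕ → E,
        Tendsto (fun n => ‖z n * algebraMap ℂ E c - algebraMap ℂ E c * z n‖) ω (𝓝 0) := by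
      intro z
      have : (fun n => ‖z n * algebraMap ℂ E c - algebraMap ℂ E c * z n‖) = fun _ => 0 := by
        funext n
        rw [← Algebra.commutes, sub_self, norm_zero]
      rw [this]
      exact tendsto_const_nhds
    exact ⟨key _, key _⟩
  star_mem' := by
    have key : ∀ (z : ℕ → E) (a : E),
        Tendsto (fun n => ‖star (z n) * a - a * star (z n)‖) ω (𝓝 0) →
        Tendsto (fun n => ‖z n * star a - star a * z n‖) ω (𝓝 0) := by
      intro z a h
      refine h.congr fun n => ?_
      rw [← norm_star, star_sub, star_mul, star_mul, star_star, norm_sub_rev]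
    intro a ha
    refine ⟨key _ a ha.2, key _ a ?_⟩
    simpa only [star_star] using ha.1

theorem isClosed_asymComm (ω : Filter ℕ) (y : ℕ → E) (hy : ∃ R : ℝ, ∀ n, ‖y n‖ ≤ R) :
    IsClosed (asymComm ω y : Set E) := by
  obtain ⟨R, hR⟩ := hy
  have hR0 : 0 ≤ R := (norm_nonneg _).trans (hR 0)
  have key : ∀ (z : ℕ → E), (∀ n, ‖z n‖ ≤ R) → ∀ a : E,
      (∀ ε > 0, ∃ b : E, ‖a - b‖ < ε ∧ Tendsto (fun n => ‖z n * b - b * z n‖) ω (𝓝 0)) →
      Tendsto (fun n => ‖z n * a - a * z n‖) ω (𝓝 0) := by
    intro z hz a h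
    rw [Metric.tendsto_nhds]
    intro ε hε
    obtain ⟨b, hb, hb'⟩ := h (ε / (4 * (R + 1))) (by positivity)
    have h2 := (Metric.tendsto_nhds.1 hb') (ε / 2) (by positivity)
    filter_upwards [h2] with n hn
    simp only [dist_zero_right, norm_norm] at hn ⊢
    have e1 : z n * a - a * z n =
        z n * (a - b) + (z n * b - b * z n) - (a - b) * z n := by noncomm_ring
    have e2 : ‖z n * (a - b)‖ ≤ R * (ε / (4 * (R + 1))) :=
      (norm_mul_le _ _).trans (mul_le_mul (hz n) hb.le (norm_nonneg _) hR0)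
    have e3 : ‖(a - b) * z n‖ ≤ (ε / (4 * (R + 1))) * R :=
      (norm_mul_le _ _).trans (mul_le_mul hb.le (hz n) (norm_nonneg _) (by positivity))
    have e4 : R * (ε / (4 * (R + 1))) ≤ ε / 4 := by
      rw [← mul_div_assoc, div_le_div_iff₀ (by positivity) (by norm_num)]
      nlinarith
    rw [e1]
    calc ‖z n * (a - b) + (z n * b - b * z n) - (a - b) * z n‖
        ≤ ‖z n * (a - b)‖ + ‖z n * b - b * z n‖ + ‖(a - b) * z n‖ :=
          (norm_sub_le _ _).trans (add_le_add (norm_add_le _ _) le_rfl)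
      _ < ε / 4 + ε / 2 + ε / 4 := by
          rw [mul_comm] at e3
          linarith
      _ = ε := by ring
  refine isClosed_of_closure_subset fun a ha => ?_
  have h1 : ∀ ε > 0, ∃ b ∈ (asymComm ω y : Set E), ‖a - b‖ < ε := fun ε hε => by
    obtain ⟨b, hb, hab⟩ := Metric.mem_closure_iff.1 ha ε hε
    exact ⟨b, hb, by rwa [dist_eq_norm] at hab⟩
  refine ⟨key _ hR a fun ε hε => ?_, key (fun n => star (y n)) (fun n => by
    rw [norm_star]; exact hR n) a fun ε hε => ?_⟩
  · obtain ⟨b, hb, hab⟩ := h1 ε hε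
    exact ⟨b, hab, hb.1⟩
  · obtain ⟨b, hb, hab⟩ := h1 ε hε
    exact ⟨b, hab, hb.2⟩

variable {G : Type v} [Group G]

theorem isCentral_of_covariant {α : G →* (A ≃⋆ₐ[ℂ] A)} {D : StarSubalgebra ℂ A} {ω : Filter ℕ}
    {φ : A →⋆ₐ[ℂ] E} {u : G → E} (h : IsCovariantPair α φ u) {x : ℕ → A}
    (hx : IsFixedCentral α D ω x) : IsCentral ω (fun n => φ (x n)) := by
  have hle : ∀ a : A, ‖φ a‖ ≤ ‖a‖ := fun a => NonUnitalStarAlgHom.norm_apply_le φ a
  obtain ⟨R, hR⟩ := hx.central.bounded
  have hb : ∀ n, ‖φ (x n)‖ ≤ R := fun n => (hle _).trans (hR n)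
  -- the star of `x` is fixed-central as well
  have hst : ∀ a : A, Tendsto (fun n => ‖star (x n) * a - a * star (x n)‖) ω (𝓝 0) := by
    intro a
    refine (hx.central.central (star a)).congr fun n => ?_
    rw [← norm_star, star_sub, star_mul, star_mul, star_star, norm_sub_rev]
  have hstf : ∀ g, Tendsto (fun n => ‖α g (star (x n)) - star (x n)‖) ω (𝓝 0) := by
    intro g
    refine (hx.fixed g).congr fun n => ?_
    rw [map_star, ← star_sub, norm_star]
  have keyA : ∀ (z : ℕ → A), (∀ a : A, Tendsto (fun n => ‖z n * a - a * z n‖) ω (𝓝 0)) →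
      ∀ a : A, Tendsto (fun n => ‖φ (z n) * φ a - φ a * φ (z n)‖) ω (𝓝 0) := by
    intro z hz a
    refine squeeze_zero (fun n => norm_nonneg _) (fun n => ?_) (hz a)
    rw [← map_mul, ← map_mul, ← map_sub]
    exact hle _
  have keyu : ∀ (z : ℕ → A) (g : G), Tendsto (fun n => ‖α g (z n) - z n‖) ω (𝓝 0) →
      Tendsto (fun n => ‖φ (z n) * u g - u g * φ (z n)‖) ω (𝓝 0) := by
    intro z g hz
    have hu := h.unitary g
    refine squeeze_zero (fun n => norm_nonneg _) (fun n => ?_) hz
    have e1 : φ (z n) * u g - u g * φ (z n) = -(φ (α g (z n) - z n) * u g) := by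
      rw [map_sub, sub_mul, h.covariant, mul_assoc, Unitary.star_mul_self_of_mem hu, mul_one,
        neg_sub]
    rw [e1, norm_neg]
    rw [CStarRing.norm_mul_mem_unitary _ hu]
    exact hle _
  have hsub : (StarAlgebra.adjoin ℂ (Set.range φ ∪ Set.range u) : StarSubalgebra ℂ E) ≤
      asymComm ω (fun n => φ (x n)) := by
    rw [StarAlgebra.adjoin_le_iff]
    rintro _ (⟨a, rfl⟩ | ⟨g, rfl⟩)
    · refine ⟨keyA x hx.central.central a, ?_⟩
      have := keyA (fun n => star (x n)) hst a
      simpa only [map_star] using this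
    · refine ⟨keyu x g (hx.fixed g), ?_⟩
      have := keyu (fun n => star (x n)) g (hstf g)
      simpa only [map_star] using this
  have hall : ∀ e : E, e ∈ asymComm ω (fun n => φ (x n)) := fun e =>
    closure_minimal hsub (isClosed_asymComm ω _ ⟨R, hb⟩) (h.dense e)
  exact ⟨⟨R, hb⟩, fun e => (hall e).1⟩

theorem fixedCharacter_of_covariant {α : G →* (A ≃⋆ₐ[ℂ] A)} {D : StarSubalgebra ℂ A}
    {ω : Filter ℕ} {φ : A →⋆ₐ[ℂ] E} {u : G → E} (h : IsCovariantPair α φ u) {χ : (ℕ → E) → ℂ}
    (hχ : IsCharacter ω χ) : IsFixedCharacter α D ω (fun x => χ (fun n => φ (x n))) where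
  null x hx h0 := by
    refine hχ.null _ (isCentral_of_covariant h hx) ?_
    exact squeeze_zero (fun n => norm_nonneg _)
      (fun n => NonUnitalStarAlgHom.norm_apply_le φ (x n)) h0
  one := by
    have : (fun n => φ ((1 : ℕ → A) n)) = 1 := by
      funext n
      simp
    rw [this, hχ.one]
  add x y hx hy := by
    have : (fun n => φ ((x + y) n)) = (fun n => φ (x n)) + fun n => φ (y n) := by
      funext n
      simp
    rw [this, hχ.add _ _ (isCentral_of_covariant h hx) (isCentral_of_covariant h hy)]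
  mul x y hx hy := by
    have : (fun n => φ ((x * y) n)) = (fun n => φ (x n)) * fun n => φ (y n) := by
      funext n
      simp
    rw [this, hχ.mul _ _ (isCentral_of_covariant h hx) (isCentral_of_covariant h hy)]
  smul c x hx := by
    have : (fun n => φ ((c • x) n)) = c • fun n => φ (x n) := by
      funext n
      simp
    rw [this, hχ.smul _ _ (isCentral_of_covariant h hx)]
  star x hx := by
    have : (fun n => φ ((star x) n)) = star fun n => φ (x n) := by
      funext n
      simp [map_star]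
    rw [this, hχ.star _ (isCentral_of_covariant h hx)]

theorem separableSpace_of_covariant [SeparableSpace A] [Countable G]
    {α : G →* (A ≃⋆ₐ[ℂ] A)} {φ : A →⋆ₐ[ℂ] E} {u : G → E} (h : IsCovariantPair α φ u) :
    SeparableSpace E := by
  set U : Set E := φ '' Set.range (denseSeq A) ∪ Set.range u with hU
  have hUc : U.Countable := ((Set.countable_range _).image _).union (Set.countable_range _)
  set T : StarSubalgebra ℂ E := (StarAlgebra.adjoin ℂ U).topologicalClosure with hT
  have hTc : IsClosed (T : Set E) := StarSubalgebra.isClosed_topologicalClosure _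
  have hUT : U ⊆ T := (StarAlgebra.subset_adjoin ℂ U).trans
    (StarSubalgebra.le_topologicalClosure _)
  have hφ : Continuous φ := by
    refine AddMonoidHomClass.continuous_of_bound φ 1 fun a => ?_
    rw [one_mul]
    exact NonUnitalStarAlgHom.norm_apply_le φ a
  have hle : (StarAlgebra.adjoin ℂ (Set.range φ ∪ Set.range u) : StarSubalgebra ℂ E) ≤ T := by
    rw [StarAlgebra.adjoin_le_iff]
    rintro _ (⟨a, rfl⟩ | ⟨g, rfl⟩)
    · have ha : a ∈ closure (Set.range (denseSeq A)) := denseRange_denseSeq A a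
      have h1 : φ a ∈ closure (φ '' Set.range (denseSeq A)) :=
        image_closure_subset_closure_image hφ ⟨a, ha, rfl⟩
      exact closure_minimal (Set.subset_union_left.trans hUT) hTc h1
    · exact hUT (Or.inr ⟨g, rfl⟩)
  have huniv : (T : Set E) = Set.univ :=
    Set.eq_univ_of_forall fun e => closure_minimal hle hTc (h.dense e)
  have hsep : IsSeparable (T : Set E) := H413.isSeparable_adjoin hUc
  rw [huniv] at hsep
  exact isSeparable_univ_iff.1 hsep

/-- Algebras generated by an image of `A` and unitaries implementing `α` are `Z`-stable. -/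
theorem zStable_of_covariant [SeparableSpace A] [Countable G] {α : G →* (A ≃⋆ₐ[ℂ] A)}
    {D : StarSubalgebra ℂ A} {ω : Ultrafilter ℕ} (hω : (ω : Filter ℕ) ≤ Filter.cofinite)
    (hno : ¬ ∃ χ : (ℕ → A) → ℂ, IsFixedCharacter α D (ω : Filter ℕ) χ)
    {φ : A →⋆ₐ[ℂ] E} {u : G → E} (h : IsCovariantPair α φ u) : IsZStable E := by
  have := separableSpace_of_covariant h
  exact (main_all E ω hω).1 fun ⟨χ, hχ⟩ => hno ⟨_, fixedCharacter_of_covariant h hχ⟩

end Vale.Agent.P101.H574
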