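import Vale.Agent.P101.StmtHom
import Vale.Agent.P101.StmtStable

/-! Definitions for the relative and equivariant version: relative commutants with fixed points,
and absorption of the Jiang-Su algebra by an inclusion with a group action. -/

open Filter Topology
open scoped Kronecker

namespace Vale.Agent.P101

universe u v

/-- `x` represents an element of `(D_ω ∩ A')^G`: a bounded sequence in `D` with
`‖x n * a - a * x n‖ → 0` along `ω` for every `a : A` and `‖α g (x n) - x n‖ → 0` along `ω` for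
every `g : G`. -/
structure IsFixedCentral {A : Type u} [CStarAlgebra A] {G : Type v} [Group G]
    (α : G →* (A ≃⋆ₐ[ℂ] A)) (D : StarSubalgebra ℂ A) (ω : Filter ℕ) (x : ℕ → A) : Prop where
  central : IsCentral ω x
  mem : ∀ n, x n ∈ D
  fixed : ∀ g, Tendsto (fun n => ‖α g (x n) - x n‖) ω (𝓝 0)

/-- `χ` is a character of `(D_ω ∩ A')^G`, given by its values on representing sequences. -/
structure IsFixedCharacter {A : Type u} [CStarAlgebra A] {G : Type v} [Group G]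
    (α : G →* (A ≃⋆ₐ[ℂ] A)) (D : StarSubalgebra ℂ A) (ω : Filter ℕ) (χ : (ℕ → A) → ℂ) :
    Prop where
  null : ∀ x, IsFixedCentral α D ω x → Tendsto (fun n => ‖x n‖) ω (𝓝 0) → χ x = 0
  one : χ 1 = 1
  add : ∀ x y, IsFixedCentral α D ω x → IsFixedCentral α D ω y → χ (x + y) = χ x + χ y
  mul : ∀ x y, IsFixedCentral α D ω x → IsFixedCentral α D ω y → χ (x * y) = χ x * χ y
  smul : ∀ (c : ℂ) (x), IsFixedCentral α D ω x → χ (c • x) = c * χ x
  star : ∀ x, IsFixedCentral α D ω x → χ (star x) = star (χ x)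

/-- There is a unital star-homomorphism from the dimension drop algebra `I(p, q)` of all continuous
`f : [0,1] → M_p ⊗ M_q` with `f 0 ∈ M_p ⊗ 1` and `f 1 ∈ 1 ⊗ M_q` to `(D_ω ∩ A')^G`. -/
structure FixedDimDropMaps {A : Type u} [CStarAlgebra A] {G : Type v} [Group G]
    (α : G →* (A ≃⋆ₐ[ℂ] A)) (D : StarSubalgebra ℂ A) (ω : Filter ℕ) (p q : ℕ) : Prop where
  hom : ∃ (S : StarSubalgebra ℂ C(unitInterval, Matrix (Fin p × Fin q) (Fin p × Fin q) ℂ))
    (Φ : S → ℕ → A),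
    (∀ f, f ∈ S ↔
      (∃ x : Matrix (Fin p) (Fin p) ℂ, f 0 = x ⊗ₖ (1 : Matrix (Fin q) (Fin q) ℂ)) ∧
      (∃ y : Matrix (Fin q) (Fin q) ℂ, f 1 = (1 : Matrix (Fin p) (Fin p) ℂ) ⊗ₖ y)) ∧
    IsHomLift ω Φ ∧ ∀ f, IsFixedCentral α D ω (Φ f)

/-- `D ⊗ Z` inside `B`: the C*-subalgebra generated by `i(D)` and `j(Z)`. -/
def tensorSub {A Z B : Type u} [CStarAlgebra A] [CStarAlgebra Z] [CStarAlgebra B]
    (i : A →⋆ₐ[ℂ] B) (j : Z →⋆ₐ[ℂ] B) (D : StarSubalgebra ℂ A) : StarSubalgebra ℂ B :=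
  (StarAlgebra.adjoin ℂ (i '' (D : Set A) ∪ Set.range j)).topologicalClosure

/-- `θ` is an isomorphism `A → B` with `θ(D) = T` and `θ a = lim U n * i a * (U n)*`, where the
`U n` are unitaries of `T`. -/
structure IsLimitIso {A B : Type u} [CStarAlgebra A] [CStarAlgebra B] (D : StarSubalgebra ℂ A)
    (T : StarSubalgebra ℂ B) (i : A →⋆ₐ[ℂ] B) (θ : A ≃⋆ₐ[ℂ] B) (U : ℕ → B) : Prop where
  image : θ '' (D : Set A) = T
  unitary : ∀ n, U n ∈ unitary B ∧ U n ∈ T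
  lim : ∀ a, Tendsto (fun n => U n * i a * star (U n)) atTop (𝓝 (θ a))

/-- `w g = lim U n * β_g((U n)*)` is a `β`-cocycle of unitaries of `T` with
`θ ∘ α_g = Ad (w g) ∘ β_g ∘ θ`. -/
structure IsLimitCocycle {A B : Type u} [CStarAlgebra A] [CStarAlgebra B] {G : Type v} [Group G]
    (α : G →* (A ≃⋆ₐ[ℂ] A)) (β : G →* (B ≃⋆ₐ[ℂ] B)) (T : StarSubalgebra ℂ B)
    (θ : A ≃⋆ₐ[ℂ] B) (U : ℕ → B) (w : G → B) : Prop where
  unitary : ∀ g, w g ∈ unitary B ∧ w g ∈ T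
  lim : ∀ g, Tendsto (fun n => U n * star (β g (U n))) atTop (𝓝 (w g))
  conj : ∀ g a, θ (α g a) = w g * β g (θ a) * star (w g)
  cocycle : ∀ g h, w (g * h) = w g * β g (w h)

/-- The inclusion `D ⊆ A` with the action `α` absorbs `Z` up to cocycle conjugacy. Here
`B = A ⊗ Z` via `i` and `j`, and `β = α ⊗ id`. -/
structure AbsorbsOver {A Z B : Type u} [CStarAlgebra A] [CStarAlgebra Z] [CStarAlgebra B]
    {G : Type v} [Group G] (α : G →* (A ≃⋆ₐ[ℂ] A)) (D : StarSubalgebra ℂ A)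
    (i : A →⋆ₐ[ℂ] B) (j : Z →⋆ₐ[ℂ] B) (β : G →* (B ≃⋆ₐ[ℂ] B)) : Prop where
  iso : ∃ θ U w, IsLimitIso D (tensorSub i j D) i θ U ∧
    IsLimitCocycle α β (tensorSub i j D) θ U w

/-- `B = A ⊗ Z` via `i` and `j`, and `β = α ⊗ id`. -/
structure IsTensorAction {A Z B : Type u} [CStarAlgebra A] [CStarAlgebra Z] [CStarAlgebra B]
    {G : Type v} [Group G] (α : G →* (A ≃⋆ₐ[ℂ] A)) (i : A →⋆ₐ[ℂ] B) (j : Z →⋆ₐ[ℂ] B)
    (β : G →* (B ≃⋆ₐ[ℂ] B)) : Prop where
  completion : IsTensorCompletion i j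
  left : ∀ g a, β g (i a) = i (α g a)
  right : ∀ g z, β g (j z) = j z

/-- The inclusion `D ⊆ A` with the action `α` absorbs the Jiang-Su algebra. -/
structure IsZStableOver {A : Type u} [CStarAlgebra A] {G : Type v} [Group G]
    (α : G →* (A ≃⋆ₐ[ℂ] A)) (D : StarSubalgebra ℂ A) : Prop where
  absorbs : ∀ (Z B : Type u) [CStarAlgebra Z] [CStarAlgebra B], IsJiangSuAlgebra Z →
    ∀ (i : A →⋆ₐ[ℂ] B) (j : Z →⋆ₐ[ℂ] B) (β : G →* (B ≃⋆ₐ[ℂ] B)),
    IsTensorAction α i j β → AbsorbsOver α D i j β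

/-- `E` is generated by the image of `A` under `φ` and by unitaries `u g` with
`φ (α_g a) = u g * φ a * (u g)*`; for example `E` is a crossed product of `A` by `α`, or a quotient
of one. -/
structure IsCovariantPair {A E : Type u} [CStarAlgebra A] [CStarAlgebra E] {G : Type v} [Group G]
    (α : G →* (A ≃⋆ₐ[ℂ] A)) (φ : A →⋆ₐ[ℂ] E) (u : G → E) : Prop where
  unitary : ∀ g, u g ∈ unitary E
  covariant : ∀ g a, φ (α g a) = u g * φ a * star (u g)
  dense : Dense ((StarAlgebra.adjoin ℂ (Set.range φ ∪ Set.range u) : StarSubalgebra ℂ E) : Set E)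

end Vale.Agent.P101
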