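import Vale.Agent.P101.H574.Legs

/-! Descent of gluing data from the relative commutants `(A_μ ∩ C')^α` over arbitrary filters to
the ones along filters on `ℕ` finer than the cofinite filter. -/

open Filter Topology TopologicalSpace

namespace Vale.Agent.P101.H574

open SeqQuot

universe u v w x

section Glue

variable {α γ : Type} [Fintype α] [DecidableEq α] [DecidableEq γ]

/-- Image of gluing data. -/
def glueMap {F : Type u} {F' : Type v} [CStarAlgebra F] [CStarAlgebra F'] (f : F →⋆ₐ[ℂ] F')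
    (D : GlueData α γ F) : GlueData α γ F' where
  g k := f (D.g k)
  e := f D.e
  z := f D.z
  s k := f (D.s k)
  gg k l := by
    rw [← map_star, ← map_mul, D.gg k l]
    split_ifs
    · rfl
    · exact map_zero f
  sum_eq := by
    rw [← map_one f, ← map_sub, ← D.sum_eq, map_sum]
    exact Finset.sum_congr rfl fun k _ => by rw [map_mul, map_star]
  gz k := (D.gz k).map f
  ss a b := by
    rw [← map_star, ← map_mul, D.ss a b]
    split_ifs
    · rfl
    · exact map_zero f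
  es a := by rw [← map_mul, D.es a]

/-- Gluing data in a trivial algebra. -/
def glueTrivial (F : Type u) [CStarAlgebra F] [Subsingleton F] : GlueData α γ F where
  g _ := 0
  e := 0
  z := 0
  s _ := 0
  gg _ _ := Subsingleton.elim _ _
  sum_eq := Subsingleton.elim _ _
  gz _ := Commute.zero_left _
  ss _ _ := Subsingleton.elim _ _
  es _ := Subsingleton.elim _ _

/-- Gluing data from finitely many commuting copies of an algebra with a commutator sum. -/
theorem uniformGlue (m : ℕ) (R : ℝ) (l : ℕ) (hl : 0 < l) :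
    ∃ N : ℕ, ∀ (D : Type u) (B : Type v) [CStarAlgebra D] [CStarAlgebra B],
      CommutatorSum D m R → CommutingCopies D B N →
        Nonempty (GlueData (Fin l → Bool) Unit B) := by
  obtain ⟨κ, hκ, ⟨Φ⟩⟩ := H413.glueData_of_legs (T := fun κ => H413.UT.{u, v} m R κ)
    (H413.ut_legs m R) Unit (H413.ut_noChar m R ()) l hl
  refine ⟨Nat.card κ, fun D B _ _ hD hB => ?_⟩
  obtain ⟨a, b, l, r, hn, hrel⟩ := hD.exists_sum
  obtain ⟨φ, hφ⟩ := hB.exists_homs
  rcases subsingleton_or_nontrivial B with hs | hs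
  · exact ⟨glueTrivial B⟩
  · let e : κ ≃ Fin (Nat.card κ) := Finite.equivFin κ
    let L : Legs κ D B := ⟨fun i => φ (e i), fun i j hij => hφ _ _ fun h => hij (e.injective h)⟩
    let s : H413.Sys.{u, v} m R κ :=
      { D := D, B := B, instD := inferInstance, instB := inferInstance, nt := hs
        a := a, b := b, l := l, r := r
        ha := fun j => (hn j).1, hb := fun j => (hn j).2.1, hl := fun j => (hn j).2.2.1
        hr := fun j => (hn j).2.2.2, rel := hrel, L := L }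
    exact ⟨glueMap (H413.co s) Φ⟩

theorem exists_glue_rel {B : Type u} [CStarAlgebra B] {G : Type w} {D : StarSubalgebra ℂ B}
    [hD : IsClosed (D : Set B)] {β : G → B ≃⋆ₐ[ℂ] B} {ι : Type} (μ : Filter ι) [NeBot μ]
    (h : IsEmpty (Rq Set.univ D β μ →⋆ₐ[ℂ] ℂ)) (l : ℕ) (hl : 0 < l) :
    ∃ (ι' : Type) (μ' : Filter ι') (_ : NeBot μ'),
      Nonempty (GlueData (Fin l → Bool) Unit (Rq Set.univ D β μ')) := by
  obtain ⟨m, R, hR⟩ := H413.commutatorSum_of_noChar h
  obtain ⟨N, hN⟩ := uniformGlue.{u, u} m R l hl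
  obtain ⟨ι', μ', hμ', ⟨L⟩⟩ := exists_rlegs_fin (D := D) (β := β) N ι μ
  exact ⟨ι', μ', hμ', hN _ _ hR ⟨⟨L.σ, L.comm⟩⟩⟩

end Glue

section Desc

variable {C : Type u} [CStarAlgebra C] {G : Type v} (A : StarSubalgebra ℂ C)
  [hA : IsClosed (A : Set C)] (α : G → C ≃⋆ₐ[ℂ] C)

/-- The quotient map. -/
noncomputable def quoR {ι : Type w} (μ : Filter ι) :
    relSeq Set.univ A α μ →ₐ[ℂ] Rq Set.univ A α μ :=
  RingCon.mkₐ ℂ (rcon Set.univ A α μ)

theorem quoR_surjective {ι : Type w} (μ : Filter ι) : Function.Surjective (quoR A α μ) :=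
  RingCon.mkₐ_surjective (rcon Set.univ A α μ)

theorem quoR_star {ι : Type w} (μ : Filter ι) (x : relSeq Set.univ A α μ) :
    quoR A α μ (star x) = star (quoR A α μ x) := rfl

theorem quoR_eq_zero_iff {ι : Type w} (μ : Filter ι) (x : relSeq Set.univ A α μ) :
    quoR A α μ x = 0 ↔ Tendsto (fun j => ‖(x : ι → C) j‖) μ (𝓝 0) := by
  rw [← map_zero (quoR A α μ)]
  have : quoR A α μ x = quoR A α μ 0 ↔ rcon Set.univ A α μ x 0 := (rcon Set.univ A α μ).eq
  rw [this]
  change Tendsto (fun i => ‖(x : ι → C) i - ((0 : relSeq Set.univ A α μ) : ι → C) i‖) μ (𝓝 0) ↔ _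
  simp

/-- Descent of countably many relations in countably many variables. -/
theorem descend_rel [SeparableSpace C] [Countable G] {ι : Type w} (μ : Filter ι) [NeBot μ]
    {κ : Type*} [Countable κ] (x : κ → Rq Set.univ A α μ) {K : Type*} [Countable K]
    (p : K → FreeAlgebra ℂ (κ ⊕ κ)) (hp : ∀ k, Descend.ev x (p k) = 0) (ω : Filter ℕ)
    (hω : ω ≤ cofinite) :
    ∃ y : κ → Rq Set.univ A α ω, ∀ k, Descend.ev y (p k) = 0 := by
  choose X hX using fun k => quoR_surjective A α μ (x k)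
  obtain ⟨d, hd⟩ := TopologicalSpace.exists_countable_dense C
  have hdc : Countable d := hd.1.to_subtype
  -- evaluation of lifts
  have hevquo : ∀ q, quoR A α μ (Descend.ev X q) = Descend.ev x q := by
    intro q
    have : ((quoR A α μ).comp (Descend.ev X)) = Descend.ev x := by
      apply FreeAlgebra.hom_ext
      funext c
      rcases c with k | k
      · simp [hX]
      · simp [quoR_star, hX]
    rw [← this]; rfl
  have hzero : ∀ k, Tendsto (fun j => ‖((Descend.ev X (p k) : relSeq Set.univ A α μ) : ι → C) j‖)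
      μ (𝓝 0) := by
    intro k
    rw [← quoR_eq_zero_iff, hevquo]
    exact hp k
  -- the family of functions tending to zero
  let F : ((κ × d) ⊕ (κ × G)) ⊕ K → ι → ℝ := Sum.elim (Sum.elim
    (fun c j => ‖(X c.1 : ι → C) j * (c.2 : C) - (c.2 : C) * (X c.1 : ι → C) j‖)
    (fun c j => ‖α c.2 ((X c.1 : ι → C) j) - (X c.1 : ι → C) j‖))
    (fun k j => ‖((Descend.ev X (p k) : relSeq Set.univ A α μ) : ι → C) j‖)
  have hF : ∀ m, Tendsto (F m) μ (𝓝 0) := by
    rintro ((c | c) | k)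
    · exact (X c.1).2.1.2 c.2 (Or.inl (Set.mem_univ _))
    · exact (X c.1).2.2.2 c.2
    · exact hzero k
  obtain ⟨i, hi⟩ := Descend.exists_seq_tendsto' μ F hF
  have hωt : ω ≤ atTop := by rwa [← Nat.cofinite_eq_atTop]
  -- commutators
  have hcomm : ∀ (k : κ) (a : C),
      Tendsto (fun n => ‖(X k : ι → C) (i n) * a - a * (X k : ι → C) (i n)‖) atTop (𝓝 0) := by
    intro k a
    obtain ⟨L, hL⟩ := (X k).2.1.1
    exact H413.comm_closure atTop (fun n => (X k : ι → C) (i n)) (K := L) (fun n => hL (i n))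
      (S := d) (fun c hc => hi (Sum.inl (Sum.inl (k, ⟨c, hc⟩)))) (hd.2 a)
  let Y : κ → relSeq Set.univ A α ω := fun k => ⟨fun n => (X k : ι → C) (i n),
    ⟨⟨(X k).2.1.1.imp fun L hL n => hL (i n), fun a _ => (hcomm k a).mono_left hωt⟩,
      fun n => (X k).2.2.1 (i n), fun g => (hi (Sum.inl (Sum.inr (k, g)))).mono_left hωt⟩⟩
  refine ⟨fun k => quoR A α ω (Y k), fun k => ?_⟩
  -- evaluation commutes with reindexing
  have hev : ∀ q, ((Descend.ev Y q : relSeq Set.univ A α ω) : ℕ → C) =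
      Descend.reindex i ((Descend.ev X q : relSeq Set.univ A α μ) : ι → C) := by
    intro q
    have : ((relSeq Set.univ A α ω).subtype.toAlgHom.comp (Descend.ev Y)) =
        (Descend.reindex i).comp ((relSeq Set.univ A α μ).subtype.toAlgHom.comp
          (Descend.ev X)) := by
      apply FreeAlgebra.hom_ext
      funext c
      rcases c with k | k
      · simp [Y]; rfl
      · simp [Y]; rfl
    exact congrArg (fun f => f q) this
  have hquo : ∀ q, Descend.ev (fun k => quoR A α ω (Y k)) q = quoR A α ω (Descend.ev Y q) := by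
    intro q
    have : Descend.ev (fun k => quoR A α ω (Y k)) = ((quoR A α ω).comp (Descend.ev Y)) := by
      apply FreeAlgebra.hom_ext
      funext c
      rcases c with k | k
      · simp
      · simp [quoR_star]
    rw [this]; rfl
  rw [hquo, quoR_eq_zero_iff]
  have h6 : Tendsto (fun n => ‖((Descend.ev X (p k) : relSeq Set.univ A α μ) : ι → C) (i n)‖)
      atTop (𝓝 0) := hi (Sum.inr k)
  refine (h6.mono_left hωt).congr fun n => ?_
  rw [hev]; rfl

open Descend in
/-- Descent of gluing data. -/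
theorem glueData_descend_rel [SeparableSpace C] [Countable G] (β γ : Type) [Fintype β]
    [DecidableEq β] [Countable γ] [DecidableEq γ] (ι : Type) (μ : Filter ι) [NeBot μ]
    (D : GlueData β γ (Rq Set.univ A α μ)) (ω : Filter ℕ) (hω : ω ≤ Filter.cofinite) :
    Nonempty (GlueData β γ (Rq Set.univ A α ω)) := by
  let x : (β ⊕ γ) ⊕ Bool → Rq Set.univ A α μ :=
    Sum.elim (Sum.elim D.g D.s) (fun k => if k then D.e else D.z)
  let G' : β → FreeAlgebra ℂ (((β ⊕ γ) ⊕ Bool) ⊕ ((β ⊕ γ) ⊕ Bool)) := fun k =>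
    va (Sum.inl (Sum.inl k))
  let Gs : β → FreeAlgebra ℂ (((β ⊕ γ) ⊕ Bool) ⊕ ((β ⊕ γ) ⊕ Bool)) := fun k =>
    vs (Sum.inl (Sum.inl k))
  let S : γ → FreeAlgebra ℂ (((β ⊕ γ) ⊕ Bool) ⊕ ((β ⊕ γ) ⊕ Bool)) := fun k =>
    va (Sum.inl (Sum.inr k))
  let Ss : γ → FreeAlgebra ℂ (((β ⊕ γ) ⊕ Bool) ⊕ ((β ⊕ γ) ⊕ Bool)) := fun k =>
    vs (Sum.inl (Sum.inr k))
  let e : FreeAlgebra ℂ (((β ⊕ γ) ⊕ Bool) ⊕ ((β ⊕ γ) ⊕ Bool)) := va (Sum.inr true)
  let z : FreeAlgebra ℂ (((β ⊕ γ) ⊕ Bool) ⊕ ((β ⊕ γ) ⊕ Bool)) := va (Sum.inr false)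
  let p : ((β × β) ⊕ (γ × γ)) ⊕ (β ⊕ γ) ⊕ Unit →
      FreeAlgebra ℂ (((β ⊕ γ) ⊕ Bool) ⊕ ((β ⊕ γ) ⊕ Bool)) :=
    Sum.elim (Sum.elim
      (fun kl => Gs kl.1 * G' kl.2 - if kl.1 = kl.2 then e else 0)
      (fun ab => Ss ab.1 * S ab.2 - if ab.1 = ab.2 then z else 0))
      (Sum.elim (Sum.elim (fun k => G' k * z - z * G' k) (fun a => e * S a - S a))
      (fun _ => ∑ k, G' k * Gs k - (1 - z)))
  obtain ⟨y, hy⟩ := descend_rel A α μ x p (by
    rintro ((⟨k, l⟩ | ⟨a, b⟩) | ((k | a) | ⟨⟩))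
    · simp only [p, Sum.elim_inl, G', Gs, e, map_sub, map_mul, ev_va, ev_vs, x]
      rw [D.gg k l]
      split_ifs <;> simp
    · simp only [p, Sum.elim_inl, Sum.elim_inr, S, Ss, z, map_sub, map_mul, ev_va, ev_vs, x]
      rw [D.ss a b]
      split_ifs <;> simp
    · simp only [p, Sum.elim_inl, Sum.elim_inr, G', z, map_sub, map_mul, ev_va, x]
      simpa using sub_eq_zero.mpr (D.gz k).eq
    · simp only [p, Sum.elim_inl, Sum.elim_inr, S, e, map_sub, map_mul, ev_va, x]
      simpa using sub_eq_zero.mpr (D.es a)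
    · simp only [p, Sum.elim_inl, Sum.elim_inr, G', Gs, z, map_sub, map_mul, map_sum, map_one,
        ev_va, ev_vs, x]
      simpa using sub_eq_zero.mpr D.sum_eq) ω hω
  refine ⟨⟨fun k => y (Sum.inl (Sum.inl k)), y (Sum.inr true), y (Sum.inr false),
    fun a => y (Sum.inl (Sum.inr a)), ?_, ?_, ?_, ?_, ?_⟩⟩
  · intro k l
    have h := hy (Sum.inl (Sum.inl (k, l)))
    simp only [p, Sum.elim_inl, G', Gs, e, map_sub, map_mul, ev_va, ev_vs] at h
    rw [sub_eq_zero.mp h]
    split_ifs <;> simp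
  · have h := hy (Sum.inr (Sum.inr ()))
    simp only [p, Sum.elim_inr, G', Gs, z, map_sub, map_mul, map_sum, map_one, ev_va, ev_vs] at h
    exact sub_eq_zero.mp h
  · intro k
    have h := hy (Sum.inr (Sum.inl (Sum.inl k)))
    simp only [p, Sum.elim_inl, Sum.elim_inr, G', z, map_sub, map_mul, ev_va] at h
    exact sub_eq_zero.mp h
  · intro a b
    have h := hy (Sum.inl (Sum.inr (a, b)))
    simp only [p, Sum.elim_inl, Sum.elim_inr, S, Ss, z, map_sub, map_mul, ev_va, ev_vs] at h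
    rw [sub_eq_zero.mp h]
    split_ifs <;> simp
  · intro a
    have h := hy (Sum.inr (Sum.inl (Sum.inr a)))
    simp only [p, Sum.elim_inl, Sum.elim_inr, S, e, map_sub, map_mul, ev_va] at h
    exact sub_eq_zero.mp h

end Desc

/-- If `(A_ω ∩ C')^α` has no characters, the prime dimension drop algebras map to it. -/
theorem dimDrop_hom_Rq {C : Type u} [CStarAlgebra C] [TopologicalSpace.SeparableSpace C]
    {G : Type v} [Countable G] (A : StarSubalgebra ℂ C) [hA : IsClosed (A : Set C)]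
    (α : G → C ≃⋆ₐ[ℂ] C) (ω : Ultrafilter ℕ) (hω : (ω : Filter ℕ) ≤ Filter.cofinite)
    (h : IsEmpty (Rq Set.univ A α (ω : Filter ℕ) →⋆ₐ[ℂ] ℂ)) (p q : ℕ) (hp : 0 < p) (hq : 0 < q)
    (hpq : Nat.Coprime p q) :
    Nonempty (dimDrop p q →⋆ₐ[ℂ] Rq Set.univ A α (ω : Filter ℕ)) := by
  obtain ⟨ι', μ', h', ⟨D⟩⟩ := exists_glue_rel (ω : Filter ℕ) h (2 * (p * q)) (by positivity)
  obtain ⟨D'⟩ := glueData_descend_rel A α _ _ ι' μ' D (ω : Filter ℕ) hω
  exact dimDrop_hom_of_glueData p q hp hq hpq D'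

end Vale.Agent.P101.H574
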