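import Vale.Agent.P101.H574.Unit

/-! One-sided approximate intertwining, relative to a subalgebra and equivariant. -/

open Filter Topology TopologicalSpace

namespace Vale.Agent.P101.H574

universe u v w x

theorem elliott_rel {C B : Type u} [CStarAlgebra C] [CStarAlgebra B]
    [SeparableSpace C] [SeparableSpace B] (i : C →⋆ₐ[ℂ] B) (hi : Function.Injective i)
    {A : StarSubalgebra ℂ C} [hA : IsClosed (A : Set C)] {D : StarSubalgebra ℂ B}
    [hD : IsClosed (D : Set B)] (hAD : ∀ a ∈ A, i a ∈ D) {G : Type x} [Countable G]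
    (β : G → B ≃⋆ₐ[ℂ] B)
    (h : ∀ (S : Finset C) (T : Finset B) (K : Finset G) (ε : ℝ), 0 < ε → ∃ v ∈ unitary B,
      v ∈ D ∧ (∀ c ∈ S, ‖v * i c - i c * v‖ < ε) ∧
      (∀ b ∈ T, ∃ c, (b ∈ D → c ∈ A) ∧ ‖star v * b * v - i c‖ < ε) ∧
      ∀ g ∈ K, ‖β g v - v‖ < ε) :
    ∃ (θ : C ≃⋆ₐ[ℂ] B) (U : ℕ → B) (w : G → B), θ '' (A : Set C) = D ∧
      (∀ n, U n ∈ unitary B ∧ U n ∈ D) ∧ (∀ g, w g ∈ unitary B) ∧
      (∀ c, Tendsto (fun n => U n * i c * star (U n)) atTop (𝓝 (θ c))) ∧
      ∀ g, Tendsto (fun n => U n * star (β g (U n))) atTop (𝓝 (w g)) := by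
  classical
  have h' : ∀ (S : Finset C) (T : Finset B) (K : Finset G) (n : ℕ),
      ∃ (v : unitary B) (α : B → C), (v : B) ∈ D ∧
      (∀ c ∈ S, ‖(v : B) * i c - i c * v‖ < (1 / 2 : ℝ) ^ n) ∧
      (∀ b ∈ T, b ∈ D → α b ∈ A) ∧
      (∀ b ∈ T, ‖star (v : B) * b * v - i (α b)‖ < (1 / 2 : ℝ) ^ n) ∧
      ∀ g ∈ K, ‖β g (v : B) - v‖ < (1 / 2 : ℝ) ^ n := by
    intro S T K n
    obtain ⟨v, hv, hvD, h1, h2, hK⟩ := h S T K ((1 / 2 : ℝ) ^ n) (by positivity)
    have h3 : ∀ b : B, ∃ c : C, b ∈ T → ((b ∈ D → c ∈ A) ∧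
        ‖star v * b * v - i c‖ < (1 / 2 : ℝ) ^ n) := by
      intro b
      by_cases hb : b ∈ T
      · obtain ⟨c, hc⟩ := h2 b hb
        exact ⟨c, fun _ => hc⟩
      · exact ⟨0, fun h => absurd h hb⟩
    choose α hα using h3
    exact ⟨⟨v, hv⟩, α, hvD, h1, fun b hb => (hα b hb).1, fun b hb => (hα b hb).2, hK⟩
  choose V α hVD hV hαA hα hVK using h'
  obtain ⟨a, ha⟩ := exists_dense_seq C
  obtain ⟨b₀, hb₀⟩ := exists_dense_seq B
  obtain ⟨b₁, hb₁⟩ := exists_dense_seq D
  -- one sequence: even members dense in `B`, odd members dense in `D`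
  let b : ℕ → B := fun n => if n % 2 = 0 then b₀ (n / 2) else (b₁ (n / 2) : D)
  have hb0 : ∀ j, b (2 * j) = b₀ j := by
    intro j
    simp only [b]
    rw [if_pos (by omega), show 2 * j / 2 = j by omega]
  have hb1 : ∀ j, b (2 * j + 1) = (b₁ j : D) := by
    intro j
    simp only [b]
    rw [if_neg (by omega), show (2 * j + 1) / 2 = j by omega]
  obtain ⟨e, he⟩ := Countable.exists_injective_nat G
  have hfin : ∀ n : ℕ, {g : G | e g ≤ n}.Finite := fun n =>
    (Set.finite_Iic n).preimage he.injOn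
  let KK : ℕ → Finset G := fun n => (hfin n).toFinset
  let G1 : ℕ → unitary B × Finset C → Finset C :=
    fun n p => p.2 ∪ (Finset.range (n + 1)).image a
  let G2 : ℕ → unitary B × Finset C → Finset B :=
    fun n p => (Finset.range (n + 1)).image (fun j => star (p.1 : B) * b j * p.1)
  let F : ℕ → unitary B × Finset C := fun n => Nat.rec (1, ∅)
    (fun n p => (p.1 * V (G1 n p) (G2 n p) (KK n) n,
      G1 n p ∪ (G2 n p).image (α (G1 n p) (G2 n p) (KK n) n))) n
  let U : ℕ → unitary B := fun n => (F n).1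
  let W : ℕ → Finset C := fun n => G1 n (F n)
  let v : ℕ → unitary B := fun n => V (W n) (G2 n (F n)) (KK n) n
  have hU : ∀ n, U (n + 1) = U n * v n := fun n => rfl
  have hUD : ∀ n, (U n : B) ∈ D := by
    intro n
    induction n with
    | zero => exact one_mem D
    | succ n ih =>
      rw [hU, Submonoid.coe_mul]
      exact mul_mem ih (hVD _ _ _ _)
  have hW : ∀ n, W n ⊆ W (n + 1) := by
    intro n x hx
    exact Finset.mem_union_left _ (Finset.mem_union_left _ hx)
  have hWm : ∀ m k, m ≤ k → W m ⊆ W k := by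
    intro m k hmk
    induction hmk with
    | refl => exact Finset.Subset.refl _
    | step _ ih => exact ih.trans (hW _)
  have haW : ∀ j n, j ≤ n → a j ∈ W n := by
    intro j n hj
    exact Finset.mem_union_right _ (Finset.mem_image.2 ⟨j, by simp; omega, rfl⟩)
  have hbW : ∀ j n, j ≤ n → ∃ c ∈ W (n + 1), (b j ∈ D → c ∈ A) ∧
      ‖star (U (n + 1) : B) * b j * U (n + 1) - i c‖ < (1 / 2 : ℝ) ^ n := by
    intro j n hj
    have hmem : star (U n : B) * b j * U n ∈ G2 n (F n) :=
      Finset.mem_image.2 ⟨j, by simp; omega, rfl⟩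
    refine ⟨α (W n) (G2 n (F n)) (KK n) n (star (U n : B) * b j * U n), ?_, ?_, ?_⟩
    · exact Finset.mem_union_left _ (Finset.mem_union_right _
        (Finset.mem_image.2 ⟨_, hmem, rfl⟩))
    · intro hbD
      exact hαA _ _ _ _ _ hmem (mul_mem (mul_mem (star_mem (hUD n)) hbD) (hUD n))
    · have := hα (W n) (G2 n (F n)) (KK n) n _ hmem
      rw [hU]
      have e : star ((U n * v n : unitary B) : B) * b j * ((U n * v n : unitary B) : B)
          = star (v n : B) * (star (U n : B) * b j * U n) * v n := by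
        simp only [Submonoid.coe_mul, star_mul, mul_assoc]
      rw [e]
      exact this
  -- the approximating homomorphisms
  let φ : ℕ → C →⋆ₐ[ℂ] B := fun n =>
    ((Unitary.conjStarAlgAut ℂ B (U n) : B ≃⋆ₐ[ℂ] B) : B →⋆ₐ[ℂ] B).comp i
  have hφ : ∀ n x, φ n x = (U n : B) * i x * star (U n : B) := fun n x => rfl
  have hφn : ∀ n x, ‖φ n x‖ = ‖x‖ := by
    intro n x
    rw [hφ, CStarRing.norm_mul_mem_unitary _ (Unitary.star_mem (U n).2),
      CStarRing.norm_coe_unitary_mul]
    exact NonUnitalStarAlgHom.norm_map i hi x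
  have hstep : ∀ n, ∀ x ∈ W n, ‖φ (n + 1) x - φ n x‖ ≤ (1 / 2 : ℝ) ^ n := by
    intro n x hx
    have e : φ (n + 1) x - φ n x
        = (U n : B) * (((v n : B) * i x - i x * v n) * star (v n : B)) * star (U n : B) := by
      have e2 : (v n : B) * star (v n : B) = 1 := Unitary.mul_star_self_of_mem (v n).2
      rw [hφ n x, hφ (n + 1) x, hU]
      simp only [Submonoid.coe_mul, star_mul, mul_sub, sub_mul, mul_assoc, e2, mul_one]
    rw [e, CStarRing.norm_mul_mem_unitary _ (Unitary.star_mem (U n).2),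
      CStarRing.norm_coe_unitary_mul, CStarRing.norm_mul_mem_unitary _ (Unitary.star_mem (v n).2)]
    exact (hV (W n) (G2 n (F n)) (KK n) n x hx).le
  have hclose : ∀ m, ∀ x ∈ W m, ∀ k, m ≤ k →
      ‖φ k x - φ m x‖ ≤ 2 * (1 / 2 : ℝ) ^ m - 2 * (1 / 2 : ℝ) ^ k := by
    intro m x hx k hk
    induction k, hk using Nat.le_induction with
    | base => simp
    | succ k hk ih =>
      have h1 := hstep k x (hWm m k hk hx)
      have h2 : φ (k + 1) x - φ m x = (φ (k + 1) x - φ k x) + (φ k x - φ m x) := by abel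
      rw [h2]
      refine (norm_add_le _ _).trans ?_
      rw [pow_succ]
      linarith
  have hclose' : ∀ m, ∀ x ∈ W m, ∀ k, m ≤ k → ‖φ k x - φ m x‖ ≤ 2 * (1 / 2 : ℝ) ^ m := by
    intro m x hx k hk
    have := hclose m x hx k hk
    have h2 : (0 : ℝ) ≤ (1 / 2 : ℝ) ^ k := by positivity
    linarith
  have hpow : ∀ ε : ℝ, 0 < ε → ∀ N : ℕ, ∃ n ≥ N, (1 / 2 : ℝ) ^ n < ε := by
    intro ε hε N
    obtain ⟨n, hn⟩ := exists_pow_lt_of_lt_one hε (by norm_num : (1 / 2 : ℝ) < 1)
    refine ⟨max n N, le_max_right _ _, ?_⟩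
    exact lt_of_le_of_lt (pow_le_pow_of_le_one (by norm_num) (by norm_num) (le_max_left _ _)) hn
  have hcauchy : ∀ x, CauchySeq (fun n => φ n x) := by
    intro x
    rw [Metric.cauchySeq_iff']
    intro ε hε
    obtain ⟨j, hj⟩ := Metric.denseRange_iff.1 ha x (ε / 4) (by linarith)
    obtain ⟨m, hmj, hm⟩ := hpow (ε / 8) (by linarith) j
    refine ⟨m, fun k hk => ?_⟩
    rw [dist_eq_norm] at hj ⊢
    have e : φ k x - φ m x = φ k (x - a j) + (φ k (a j) - φ m (a j)) - φ m (x - a j) := by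
      simp only [map_sub]; abel
    rw [e]
    have h1 := hclose' m (a j) (haW j m hmj) k hk
    have h2 := hφn k (x - a j)
    have h3 := hφn m (x - a j)
    have h4 := norm_sub_le (φ k (x - a j) + (φ k (a j) - φ m (a j))) (φ m (x - a j))
    have h5 := norm_add_le (φ k (x - a j)) (φ k (a j) - φ m (a j))
    linarith
  choose Φ hΦ using fun x => cauchySeq_tendsto_of_complete (hcauchy x)
  let Ψ : C →⋆ₐ[ℂ] B :=
    { toFun := Φ
      map_one' := tendsto_nhds_unique (hΦ 1) (by simp)
      map_mul' := fun x y => tendsto_nhds_unique (hΦ (x * y))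
        (by simpa using (hΦ x).mul (hΦ y))
      map_zero' := tendsto_nhds_unique (hΦ 0) (by simp)
      map_add' := fun x y => tendsto_nhds_unique (hΦ (x + y))
        (by simpa using (hΦ x).add (hΦ y))
      commutes' := fun r => tendsto_nhds_unique (hΦ (algebraMap ℂ C r))
        (by simpa only [AlgHomClass.commutes] using tendsto_const_nhds)
      map_star' := fun x => tendsto_nhds_unique (hΦ (star x))
        (by simpa only [map_star] using (hΦ x).star) }
  have hΨ : ∀ x, Tendsto (fun n => φ n x) atTop (𝓝 (Ψ x)) := hΦ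
  have hnorm : ∀ x, ‖Ψ x‖ = ‖x‖ := by
    intro x
    refine tendsto_nhds_unique (hΨ x).norm ?_
    simp only [hφn]
    exact tendsto_const_nhds
  have hiso : Isometry Ψ := AddMonoidHomClass.isometry_of_norm Ψ hnorm
  have hclosed : IsClosed (Set.range Ψ) := hiso.isClosedEmbedding.isClosed_range
  have hclosedA : IsClosed (Ψ '' (A : Set C)) := hiso.isClosedEmbedding.isClosedMap _ hA
  have hlim : ∀ m, ∀ x ∈ W m, ‖Ψ x - φ m x‖ ≤ 2 * (1 / 2 : ℝ) ^ m := by
    intro m x hx
    have h1 : Tendsto (fun k => ‖φ k x - φ m x‖) atTop (𝓝 ‖Ψ x - φ m x‖) :=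
      ((hΨ x).sub tendsto_const_nhds).norm
    refine le_of_tendsto h1 ?_
    filter_upwards [eventually_ge_atTop m] with k hk
    exact hclose' m x hx k hk
  have happ : ∀ j, ∀ ε : ℝ, 0 < ε → ∃ c, (b j ∈ D → c ∈ A) ∧ dist (b j) (Ψ c) < ε := by
    intro j ε hε
    obtain ⟨n, hnj, hn⟩ := hpow (ε / 4) (by linarith) j
    obtain ⟨c, hc, hcA, hc'⟩ := hbW j n hnj
    refine ⟨c, hcA, ?_⟩
    rw [dist_eq_norm]
    have h1 := hlim (n + 1) c hc
    have h2 : ‖b j - φ (n + 1) c‖ < (1 / 2 : ℝ) ^ n := by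
      have e : b j - φ (n + 1) c
          = (U (n + 1) : B) * (star (U (n + 1) : B) * b j * U (n + 1) - i c)
            * star (U (n + 1) : B) := by
        have e2 : (U (n + 1) : B) * star (U (n + 1) : B) = 1 :=
          Unitary.mul_star_self_of_mem (U (n + 1)).2
        have e3 : (U (n + 1) : B) * (star (U (n + 1) : B) * b j * U (n + 1))
            * star (U (n + 1) : B) = ((U (n + 1) : B) * star (U (n + 1) : B)) * b j
            * ((U (n + 1) : B) * star (U (n + 1) : B)) := by
          simp only [mul_assoc]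
        rw [mul_sub, sub_mul, e3, e2, one_mul, mul_one, hφ (n + 1) c]
      rw [e, CStarRing.norm_mul_mem_unitary _ (Unitary.star_mem (U (n + 1)).2),
        CStarRing.norm_coe_unitary_mul]
      exact hc'
    have e : b j - Ψ c = (b j - φ (n + 1) c) - (Ψ c - φ (n + 1) c) := by abel
    rw [e]
    have h3 := norm_sub_le (b j - φ (n + 1) c) (Ψ c - φ (n + 1) c)
    rw [pow_succ] at h1
    linarith
  have hsurj : Function.Surjective Ψ := by
    have hdense : Set.range b₀ ⊆ Set.range Ψ := by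
      rintro _ ⟨j, rfl⟩
      rw [← hclosed.closure_eq, Metric.mem_closure_iff]
      intro ε hε
      obtain ⟨c, -, hc⟩ := happ (2 * j) ε hε
      rw [hb0] at hc
      exact ⟨Ψ c, ⟨c, rfl⟩, hc⟩
    have h1 : closure (Set.range b₀) ⊆ Set.range Ψ := closure_minimal hdense hclosed
    rw [hb₀.closure_range] at h1
    intro y
    exact h1 (Set.mem_univ y)
  have himage : Ψ '' (A : Set C) = D := by
    apply Set.Subset.antisymm
    · rintro _ ⟨c, hc, rfl⟩
      refine hD.mem_of_tendsto (hΨ c) (Eventually.of_forall fun n => ?_)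
      rw [hφ]
      exact mul_mem (mul_mem (hUD n) (hAD c hc)) (star_mem (hUD n))
    · intro y hy
      have h1 : ∀ z : D, (z : B) ∈ Ψ '' (A : Set C) := by
        have h2 : IsClosed {z : D | (z : B) ∈ Ψ '' (A : Set C)} :=
          hclosedA.preimage continuous_subtype_val
        have h3 : closure (Set.range b₁) ⊆ {z : D | (z : B) ∈ Ψ '' (A : Set C)} := by
          refine closure_minimal ?_ h2
          rintro _ ⟨j, rfl⟩
          show ((b₁ j : D) : B) ∈ Ψ '' (A : Set C)
          rw [← hclosedA.closure_eq, Metric.mem_closure_iff]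
          intro ε hε
          obtain ⟨c, hcA, hc⟩ := happ (2 * j + 1) ε hε
          rw [hb1] at hc hcA
          exact ⟨Ψ c, ⟨c, hcA (b₁ j).2, rfl⟩, hc⟩
        rw [hb₁.closure_range] at h3
        exact fun z => h3 (Set.mem_univ z)
      exact h1 ⟨y, hy⟩
  -- the cocycle
  have hw : ∀ g, ∃ w ∈ unitary B,
      Tendsto (fun n => (U n : B) * star (β g (U n : B))) atTop (𝓝 w) := by
    intro g
    have hβU : ∀ n, β g (U n : B) ∈ unitary B := by
      intro n
      have := Unitary.mem_iff.1 (U n).2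
      rw [Unitary.mem_iff, ← map_star, ← map_mul, ← map_mul, this.1, this.2, map_one]
      exact ⟨rfl, rfl⟩
    have hβv : ∀ n, β g (v n : B) ∈ unitary B := by
      intro n
      have := Unitary.mem_iff.1 (v n).2
      rw [Unitary.mem_iff, ← map_star, ← map_mul, ← map_mul, this.1, this.2, map_one]
      exact ⟨rfl, rfl⟩
    have hst : ∀ n, e g ≤ n → dist ((U n : B) * star (β g (U n : B)))
        ((U (n + 1) : B) * star (β g (U (n + 1) : B))) ≤ 1 / 2 / 2 ^ n * 2 := by
      intro n hn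
      have hgK : g ∈ KK n := (hfin n).mem_toFinset.2 hn
      have h1 := hVK (W n) (G2 n (F n)) (KK n) n g hgK
      have h1' : ‖β g (v n : B) - v n‖ < (1 / 2 : ℝ) ^ n := h1
      rw [dist_eq_norm]
      have e1 : (U n : B) * star (β g (U n : B)) -
          (U (n + 1) : B) * star (β g (U (n + 1) : B)) =
          (U n : B) * ((β g (v n : B) - v n) * star (β g (v n : B))) * star (β g (U n : B)) := by
        have e2 : β g (v n : B) * star (β g (v n : B)) = 1 :=
          (Unitary.mem_iff.1 (hβv n)).2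
        rw [hU]
        simp only [Submonoid.coe_mul, map_mul, star_mul, sub_mul, mul_sub, e2, mul_one]
        noncomm_ring
      rw [e1, CStarRing.norm_mul_mem_unitary _ (Unitary.star_mem (hβU n)),
        CStarRing.norm_coe_unitary_mul, CStarRing.norm_mul_mem_unitary _
        (Unitary.star_mem (hβv n))]
      refine h1'.le.trans (le_of_eq ?_)
      rw [one_div_pow]
      ring
    have hcs : CauchySeq (fun n => (U n : B) * star (β g (U n : B))) := by
      rw [← cauchySeq_shift (e g)]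
      refine cauchySeq_of_le_geometric (1 / 2) (1 / 2 ^ (e g)) (by norm_num) fun n => ?_
      have h2 := hst (n + e g) (Nat.le_add_left _ _)
      have h3 : n + e g + 1 = n + 1 + e g := by omega
      rw [h3] at h2
      refine h2.trans (le_of_eq ?_)
      rw [pow_add, one_div_pow]
      field_simp
    obtain ⟨w, hw⟩ := cauchySeq_tendsto_of_complete hcs
    refine ⟨w, ?_, hw⟩
    have hu : ∀ n, (U n : B) * star (β g (U n : B)) ∈ unitary B := fun n =>
      mul_mem (U n).2 (Unitary.star_mem (hβU n))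
    rw [Unitary.mem_iff]
    constructor
    · refine tendsto_nhds_unique (hw.star.mul hw) ?_
      refine tendsto_const_nhds.congr fun n => ?_
      exact ((Unitary.mem_iff.1 (hu n)).1).symm
    · refine tendsto_nhds_unique (hw.mul hw.star) ?_
      refine tendsto_const_nhds.congr fun n => ?_
      exact ((Unitary.mem_iff.1 (hu n)).2).symm
  choose w hwu hwt using hw
  exact ⟨StarAlgEquiv.ofBijective Ψ ⟨hiso.injective, hsurj⟩, fun n => (U n : B), w, himage,
    fun n => ⟨(U n).2, hUD n⟩, hwu, fun c => hΨ c, hwt⟩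

end Vale.Agent.P101.H574
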