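import Vale.Agent.P101.H574.Conv
import Vale.Agent.P101.H574.Desc

/-! Characters of `(A_ω ∩ C')^G` and unital homs from dimension drop algebras. -/

open Filter Topology TopologicalSpace

namespace Vale.Agent.P101.H574

open SeqQuot H413

universe u v

variable {C : Type u} [CStarAlgebra C] {G : Type v} [Group G]

theorem fixedDimDropMaps_of_not_char [SeparableSpace C] [Countable G] (α : G →* (C ≃⋆ₐ[ℂ] C))
    (A : StarSubalgebra ℂ C) (hA : IsClosed (A : Set C)) (ω : Ultrafilter ℕ)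
    (hω : (ω : Filter ℕ) ≤ Filter.cofinite)
    (h : ¬ ∃ χ : (ℕ → C) → ℂ, IsFixedCharacter α A (ω : Filter ℕ) χ)
    (p q : ℕ) (hp : 0 < p) (hq : 0 < q) (hpq : Nat.Coprime p q) :
    FixedDimDropMaps α A (ω : Filter ℕ) p q := by
  have := hA
  obtain ⟨φ⟩ := dimDrop_hom_Rq A (fun g => α g) ω hω (isEmpty_of_not_fixedChar α A _ h) p q
    hp hq hpq
  exact fixedDimDropMaps_of_hom α A _ p q φ

/-- The relative and equivariant theorem. -/
theorem main_over [SeparableSpace C] [Countable G] (α : G →* (C ≃⋆ₐ[ℂ] C))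
    (A : StarSubalgebra ℂ C) (hA : IsClosed (A : Set C)) (hαA : ∀ g, ∀ a ∈ A, α g a ∈ A)
    (ω : Ultrafilter ℕ) (hω : (ω : Filter ℕ) ≤ Filter.cofinite) :
    ((¬ ∃ χ : (ℕ → C) → ℂ, IsFixedCharacter α A (ω : Filter ℕ) χ) → IsZStableOver α A) ∧
    ((¬ ∃ χ : (ℕ → C) → ℂ, IsFixedCharacter α A (ω : Filter ℕ) χ) ↔
      FixedDimDropMaps α A (ω : Filter ℕ) 2 3) ∧
    ((¬ ∃ χ : (ℕ → C) → ℂ, IsFixedCharacter α A (ω : Filter ℕ) χ) ↔
      ∀ p q : ℕ, 0 < p → 0 < q → Nat.Coprime p q → FixedDimDropMaps α A (ω : Filter ℕ) p q) :=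
  ⟨fun h => zStableOver α A hA hαA (ω : Filter ℕ) h,
    ⟨fun h => fixedDimDropMaps_of_not_char α A hA ω hω h 2 3 (by norm_num) (by norm_num)
      (by norm_num), not_char_of_fixedDimDropMaps⟩,
    ⟨fun h p q hp hq hpq => fixedDimDropMaps_of_not_char α A hA ω hω h p q hp hq hpq,
      fun h => not_char_of_fixedDimDropMaps (h 2 3 (by norm_num) (by norm_num) (by norm_num))⟩⟩

end Vale.Agent.P101.H574
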