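import Vale.Agent.P101.H574.Rel

/-! Commuting copies of `(D_μ ∩ B')^β` over product index sets, and homs from dimension drop
algebras. -/

open Filter Topology TopologicalSpace

namespace Vale.Agent.P101.H574

open SeqQuot H413

universe u v w x

section Pull

variable {B : Type u} [CStarAlgebra B] {G : Type w} {S : Set B} {D : StarSubalgebra ℂ B}
  [hD : IsClosed (D : Set B)] {β : G → B ≃⋆ₐ[ℂ] B} {ι ι' : Type v} {μ : Filter ι}
  {μ' : Filter ι'}

/-- Pull-back along a map of index sets. -/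
def rpullSeq (f : ι' → ι) (hf : Tendsto f μ' μ) : relSeq S D β μ →⋆ₐ[ℂ] relSeq S D β μ' where
  toFun x := ⟨fun i => (x : ι → B) (f i), by
    obtain ⟨⟨⟨C, hC⟩, hx⟩, hxD, hxβ⟩ := x.2
    exact ⟨⟨⟨C, fun i => hC (f i)⟩, fun a ha => (hx a ha).comp hf⟩, fun i => hxD (f i),
      fun g => (hxβ g).comp hf⟩⟩
  map_one' := rfl
  map_mul' _ _ := rfl
  map_zero' := rfl
  map_add' _ _ := rfl
  commutes' _ := rfl
  map_star' _ := rfl

/-- Pull-back on the quotients. -/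
noncomputable def rpull (f : ι' → ι) (hf : Tendsto f μ' μ) :
    Rq S D β μ →⋆ₐ[ℂ] Rq S D β μ' where
  toFun := Quotient.map' (rpullSeq (S := S) (D := D) (β := β) f hf) (by
    intro x y h
    have h' : Tendsto (fun i => ‖(x : ι → B) i - (y : ι → B) i‖) μ (𝓝 0) := h
    exact h'.comp hf)
  map_one' := rfl
  map_mul' := by rintro ⟨x⟩ ⟨y⟩; rfl
  map_zero' := rfl
  map_add' := by rintro ⟨x⟩ ⟨y⟩; rfl
  commutes' _ := rfl
  map_star' := by rintro ⟨x⟩; rfl

end Pull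

section Legs

variable {B : Type u} [CStarAlgebra B] {G : Type w} {D : StarSubalgebra ℂ B}
  [hD : IsClosed (D : Set B)] {β : G → B ≃⋆ₐ[ℂ] B}

theorem rpull_commute {ι ι' : Type v} (μ : Filter ι) (μ' : Filter ι')
    (x : Rq Set.univ D β μ') (y : Rq Set.univ D β μ) :
    Commute (rpull Prod.fst (tendsto_fst_curry μ μ') x : Rq Set.univ D β (μ'.curry μ))
      (rpull Prod.snd (tendsto_snd_curry μ μ') y) := by
  obtain ⟨x, rfl⟩ := Rq.mk_surjective μ' x
  obtain ⟨y, rfl⟩ := Rq.mk_surjective μ y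
  refine Quotient.sound (?_ : (rcon Set.univ D β (μ'.curry μ)) _ _)
  show Tendsto (fun p : ι' × ι => ‖(x : ι' → B) p.1 * (y : ι → B) p.2
    - (y : ι → B) p.2 * (x : ι' → B) p.1‖) (μ'.curry μ) (𝓝 0)
  refine Filter.Tendsto.curry (f := fun i j => ‖(x : ι' → B) i * (y : ι → B) j
    - (y : ι → B) j * (x : ι' → B) i‖) (Filter.Eventually.of_forall fun i => ?_)
  have := y.2.1.2 ((x : ι' → B) i) (Or.inl (Set.mem_univ _))
  simpa only [norm_sub_rev] using this

theorem exists_rlegs_fin (k : ℕ) (ι : Type) (μ : Filter ι) [NeBot μ] :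
    ∃ (ι' : Type) (μ' : Filter ι') (_ : NeBot μ'),
      Nonempty (Legs (Fin k) (Rq Set.univ D β μ) (Rq Set.univ D β μ')) := by
  induction k with
  | zero => exact ⟨ι, μ, inferInstance, ⟨⟨fun i => i.elim0, fun i => i.elim0⟩⟩⟩
  | succ k ih =>
    obtain ⟨ι', μ', hμ', ⟨L⟩⟩ := ih
    refine ⟨ι' × ι, μ'.curry μ, curry_neBot μ μ', ⟨⟨fun i => Fin.cases
      (rpull Prod.snd (tendsto_snd_curry μ μ'))
      (fun i => (rpull Prod.fst (tendsto_fst_curry μ μ')).comp (L.σ i)) i, ?_⟩⟩⟩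
    intro i j
    refine Fin.cases ?_ (fun i => ?_) i
    · refine Fin.cases (fun h => (h rfl).elim) (fun j _ x y => ?_) j
      exact (rpull_commute μ μ' (L.σ j y) x).symm
    · refine Fin.cases (fun _ x y => ?_) (fun j h x y => ?_) j
      · exact rpull_commute μ μ' (L.σ i x) y
      · have h' : i ≠ j := fun e => h (congrArg Fin.succ e)
        exact (L.comm i j h' x y).map
          (rpull (S := Set.univ) (D := D) (β := β) Prod.fst (tendsto_fst_curry μ μ'))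

theorem exists_dimDrop_rel {ι : Type} (μ : Filter ι) [NeBot μ]
    (h : IsEmpty (Rq Set.univ D β μ →⋆ₐ[ℂ] ℂ)) (p q : ℕ) (hp : 0 < p) (hq : 0 < q)
    (hpq : Nat.Coprime p q) :
    ∃ (ι' : Type) (μ' : Filter ι') (_ : NeBot μ'),
      Nonempty (dimDrop p q →⋆ₐ[ℂ] Rq Set.univ D β μ') := by
  obtain ⟨m, R, hR⟩ := commutatorSum_of_noChar h
  obtain ⟨N, hN⟩ := uniform.{u, u} m R p q hp hq hpq
  obtain ⟨ι', μ', hμ', ⟨L⟩⟩ := exists_rlegs_fin (D := D) (β := β) N ι μ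
  exact ⟨ι', μ', hμ', hN _ _ hR ⟨⟨L.σ, L.comm⟩⟩⟩

end Legs

end Vale.Agent.P101.H574
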