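import Vale.Agent.P101.H574.Legs

/-! Homomorphisms from the Jiang-Su algebra to `(D_μ ∩ B')^β`. -/

open Filter Topology TopologicalSpace

namespace Vale.Agent.P101.H574

open SeqQuot H413

universe u v w x

section Rep

variable {B : Type u} [CStarAlgebra B] {G : Type w} {S : Set B} {D : StarSubalgebra ℂ B}
  [hD : IsClosed (D : Set B)] {β : G → B ≃⋆ₐ[ℂ] B} {ι : Type v} {μ : Filter ι}

/-- Representatives with bounded norm. -/
theorem exists_rrep_bounded (z : Rq S D β μ) {r : ℝ} (hr : ‖z‖ < r) :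
    ∃ y : relSeq S D β μ, Rq.mk μ y = z ∧ ∀ i, ‖(y : ι → B) i‖ ≤ r := by
  have hr0 : 0 ≤ r := (norm_nonneg _).trans hr.le
  obtain ⟨y, hy⟩ := Rq.mk_surjective μ z
  have hev := Rq.eventually_norm_lt μ y (by rw [hy]; exact hr)
  refine ⟨⟨Set.indicator {i | ‖(y : ι → B) i‖ < r} (y : ι → B),
    (isSeqAlg_relSeq S D β μ).cut _ y.2 _ hev⟩, ?_, fun i => ?_⟩
  · rw [← hy, Rq.mk_eq_iff]
    refine tendsto_const_nhds.congr' ?_
    filter_upwards [hev] with i hi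
    show 0 = ‖Set.indicator {i | ‖(y : ι → B) i‖ < r} (y : ι → B) i - (y : ι → B) i‖
    rw [Set.indicator_of_mem (show i ∈ {i | ‖(y : ι → B) i‖ < r} from hi), sub_self, norm_zero]
  · show ‖Set.indicator {i | ‖(y : ι → B) i‖ < r} (y : ι → B) i‖ ≤ r
    by_cases hi : i ∈ {i | ‖(y : ι → B) i‖ < r}
    · rw [Set.indicator_of_mem hi]; exact le_of_lt hi
    · rw [Set.indicator_of_notMem hi, norm_zero]; exact hr0

end Rep

section Limit

variable {B : Type u} [CStarAlgebra B] {G : Type x} {S : Set B} {D : StarSubalgebra ℂ B}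
  [hD : IsClosed (D : Set B)] {β : G → B ≃⋆ₐ[ℂ] B} {Z : Type v} [CStarAlgebra Z]

theorem exists_rhom_of_contractive {T : ℕ → StarSubalgebra ℂ Z} (hmono : Monotone T)
    (hdense : Dense (⋃ n, (T n : Set Z))) {ι : ℕ → Type w} {μ : ∀ n, Filter (ι n)}
    (hμ : ∀ n, NeBot (μ n)) (φ : ∀ n, T n →⋆ₐ[ℂ] Rq S D β (μ n))
    (hφ : ∀ n (s : T n), ‖φ n s‖ ≤ ‖(s : Z)‖) :
    ∃ (ν : Filter (Σ n, ι n)) (_ : NeBot ν), Nonempty (Z →⋆ₐ[ℂ] Rq S D β ν) := by
  classical
  let ν : Filter (Σ n, ι n) := atTop.bind (fun n => (μ n).map (Sigma.mk n))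
  have hev : ∀ p : (Σ n, ι n) → Prop,
      (∀ᶠ x in ν, p x) ↔ ∀ᶠ n in atTop, ∀ᶠ i in μ n, p ⟨n, i⟩ := fun p => by
    simp only [ν, eventually_bind, eventually_map]
  have hν : NeBot ν := by
    refine ⟨fun h => ?_⟩
    have h1 : ∀ᶠ x in ν, False := by rw [h]; trivial
    rw [hev] at h1
    obtain ⟨n, hn⟩ := h1.exists
    obtain ⟨_, hi⟩ := hn.exists
    exact hi
  -- the relation defining the homomorphism
  let Rel : Z → relSeq S D β ν → Prop := fun z w =>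
    ∃ s : ∀ n, T n, Tendsto (fun n => (s n : Z)) atTop (𝓝 z) ∧
      ∀ n, ∃ y : relSeq S D β (μ n), Rq.mk (μ n) y = φ n (s n) ∧
        ∀ i, (w : (Σ n, ι n) → B) ⟨n, i⟩ = (y : ι n → B) i
  have hadd : ∀ z z' w w', Rel z w → Rel z' w' → Rel (z + z') (w + w') := by
    rintro z z' w w' ⟨s, hs, h⟩ ⟨s', hs', h'⟩
    refine ⟨fun n => s n + s' n, hs.add hs', fun n => ?_⟩
    obtain ⟨y, hy, e⟩ := h n
    obtain ⟨y', hy', e'⟩ := h' n
    refine ⟨y + y', ?_, fun i => ?_⟩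
    · rw [map_add, ← hy, ← hy']; rfl
    · show (w : (Σ n, ι n) → B) ⟨n, i⟩ + (w' : (Σ n, ι n) → B) ⟨n, i⟩ = _
      rw [e, e']; rfl
  have hmul : ∀ z z' w w', Rel z w → Rel z' w' → Rel (z * z') (w * w') := by
    rintro z z' w w' ⟨s, hs, h⟩ ⟨s', hs', h'⟩
    refine ⟨fun n => s n * s' n, hs.mul hs', fun n => ?_⟩
    obtain ⟨y, hy, e⟩ := h n
    obtain ⟨y', hy', e'⟩ := h' n
    refine ⟨y * y', ?_, fun i => ?_⟩
    · rw [map_mul, ← hy, ← hy']; rfl
    · show (w : (Σ n, ι n) → B) ⟨n, i⟩ * (w' : (Σ n, ι n) → B) ⟨n, i⟩ = _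
      rw [e, e']; rfl
  have hstar : ∀ z w, Rel z w → Rel (star z) (star w) := by
    rintro z w ⟨s, hs, h⟩
    refine ⟨fun n => star (s n), hs.star, fun n => ?_⟩
    obtain ⟨y, hy, e⟩ := h n
    refine ⟨star y, ?_, fun i => ?_⟩
    · rw [map_star, ← hy]; rfl
    · show star ((w : (Σ n, ι n) → B) ⟨n, i⟩) = _
      rw [e]; rfl
  have halg : ∀ c : ℂ, Rel (algebraMap ℂ Z c) (algebraMap ℂ (relSeq S D β ν) c) := by
    intro c
    refine ⟨fun n => algebraMap ℂ (T n) c, tendsto_const_nhds, fun n => ?_⟩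
    refine ⟨algebraMap ℂ (relSeq S D β (μ n)) c, ?_, fun i => rfl⟩
    rw [AlgHomClass.commutes]; rfl
  have huniq : ∀ z w w', Rel z w → Rel z w' → Rq.mk ν w = Rq.mk ν w' := by
    rintro z w w' ⟨s, hs, h⟩ ⟨s', hs', h'⟩
    rw [Rq.mk_eq_iff, Metric.tendsto_nhds]
    intro ε hε
    rw [hev]
    have hdiff : Tendsto (fun n => ‖(s n : Z) - (s' n : Z)‖) atTop (𝓝 0) := by
      have := (hs.sub hs').norm
      rwa [sub_self, norm_zero] at this
    filter_upwards [hdiff.eventually (gt_mem_nhds hε)] with n hn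
    obtain ⟨y, hy, e⟩ := h n
    obtain ⟨y', hy', e'⟩ := h' n
    have h2 : ‖Rq.mk (μ n) (y - y')‖ < ε := by
      rw [Rq.mk_sub, hy, hy', ← map_sub]
      exact (hφ n _).trans_lt hn
    filter_upwards [Rq.eventually_norm_lt (μ n) _ h2] with i hi
    rw [e, e', dist_zero_right, norm_norm]
    exact hi
  have hex : ∀ z, ∃ w, Rel z w := by
    intro z
    have h1 : ∀ n, ∃ s : T n,
        dist z (s : Z) < Metric.infDist z (T n : Set Z) + 1 / ((n : ℝ) + 1) := by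
      intro n
      have hne : (T n : Set Z).Nonempty := ⟨0, zero_mem _⟩
      have hlt : Metric.infDist z (T n : Set Z)
          < Metric.infDist z (T n : Set Z) + 1 / ((n : ℝ) + 1) := by
        have : (0 : ℝ) < 1 / ((n : ℝ) + 1) := by positivity
        linarith
      obtain ⟨y, hy, hd⟩ := (Metric.infDist_lt_iff hne).1 hlt
      exact ⟨⟨y, hy⟩, hd⟩
    choose s hs using h1
    have hconv : Tendsto (fun n => (s n : Z)) atTop (𝓝 z) := by
      rw [Metric.tendsto_atTop]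
      intro ε hε
      obtain ⟨y, hy, hyz⟩ := Metric.dense_iff.1 hdense z (ε / 2) (by linarith)
      obtain ⟨m, hm⟩ := Set.mem_iUnion.1 hyz
      obtain ⟨k, hk⟩ := exists_nat_one_div_lt (show (0 : ℝ) < ε / 2 by linarith)
      refine ⟨max m k, fun n hn => ?_⟩
      have hmn : (y : Z) ∈ (T n : Set Z) := hmono ((le_max_left m k).trans hn) hm
      have h2 : Metric.infDist z (T n : Set Z) ≤ dist z y := Metric.infDist_le_dist_of_mem hmn
      have h3 : dist z y < ε / 2 := by rw [dist_comm]; exact hy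
      have h4 : 1 / ((n : ℝ) + 1) ≤ 1 / ((k : ℝ) + 1) := by
        apply one_div_le_one_div_of_le (by positivity)
        have : (k : ℝ) ≤ n := by exact_mod_cast (le_max_right m k).trans hn
        linarith
      have h5 := hs n
      rw [dist_comm]
      linarith
    -- uniform bound
    obtain ⟨C, hC⟩ : ∃ C : ℝ, ∀ n, ‖(s n : Z)‖ < C := by
      obtain ⟨C, hC⟩ := (Metric.isBounded_range_of_tendsto _ hconv).exists_norm_le
      exact ⟨C + 1, fun n => lt_of_le_of_lt (hC _ ⟨n, rfl⟩) (by linarith)⟩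
    have h2 : ∀ n, ∃ y : relSeq S D β (μ n), Rq.mk (μ n) y = φ n (s n) ∧
        ∀ i, ‖(y : ι n → B) i‖ ≤ C := fun n =>
      exists_rrep_bounded _ ((hφ n _).trans_lt (hC n))
    choose y hy hyC using h2
    let w : (Σ n, ι n) → B := fun x => (y x.1 : ι x.1 → B) x.2
    have hw : w ∈ relSeq S D β ν := by
      refine ⟨⟨⟨C, fun x => hyC _ _⟩, fun a ha => ?_⟩, fun x => (y x.1).2.2.1 x.2, fun g => ?_⟩
      · rw [Metric.tendsto_nhds]
        intro ε hε
        rw [hev]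
        refine Eventually.of_forall fun n => ?_
        exact (Metric.tendsto_nhds.1 ((y n).2.1.2 a ha)) ε hε
      · rw [Metric.tendsto_nhds]
        intro ε hε
        rw [hev]
        refine Eventually.of_forall fun n => ?_
        exact (Metric.tendsto_nhds.1 ((y n).2.2.2 g)) ε hε
    exact ⟨⟨w, hw⟩, s, hconv, fun n => ⟨y n, hy n, fun i => rfl⟩⟩
  choose W hW using hex
  refine ⟨ν, hν, ⟨{
    toFun := fun z => Rq.mk ν (W z)
    map_one' := ?_
    map_mul' := fun z z' => ?_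
    map_zero' := ?_
    map_add' := fun z z' => ?_
    commutes' := fun c => ?_
    map_star' := fun z => ?_ }⟩⟩
  · have h1 := halg 1
    rw [map_one, map_one] at h1
    exact huniq _ _ _ (hW 1) h1
  · exact huniq _ _ _ (hW (z * z')) (hmul _ _ _ _ (hW z) (hW z'))
  · have h1 := halg 0
    rw [map_zero, map_zero] at h1
    exact huniq _ _ _ (hW 0) h1
  · exact huniq _ _ _ (hW (z + z')) (hadd _ _ _ _ (hW z) (hW z'))
  · exact huniq _ _ _ (hW _) (halg c)
  · exact huniq _ _ _ (hW (star z)) (hstar _ _ (hW z))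

end Limit

section DimDrop

open scoped Matrix.Norms.L2Operator

theorem norm_dimDrop_le {F : Type u} [CStarAlgebra F] {Z : Type v} [CStarAlgebra Z]
    {S : StarSubalgebra ℂ Z} (p q : ℕ) (e : dimDrop p q ≃⋆ₐ[ℂ] S)
    (φ : dimDrop p q →⋆ₐ[ℂ] F) (s : S) :
    ‖(φ.comp (e.symm : S →⋆ₐ[ℂ] dimDrop p q)) s‖ ≤ ‖(s : Z)‖ := by
  have : IsClosed ((dimDrop p q : StarSubalgebra ℂ
      C(unitInterval, Matrix (Fin p × Fin q) (Fin p × Fin q) ℂ)) :
      Set C(unitInterval, Matrix (Fin p × Fin q) (Fin p × Fin q) ℂ)) :=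
    sepAux_isClosed_dimDrop p q
  let _ : CStarAlgebra (dimDrop p q) := StarSubalgebra.cstarAlgebra (dimDrop p q)
  let j : dimDrop p q →⋆ₐ[ℂ] Z := S.subtype.comp (e : dimDrop p q →⋆ₐ[ℂ] S)
  have hj : Function.Injective j := fun a b hab => e.injective (Subtype.ext hab)
  have hnorm : ‖e.symm s‖ = ‖(s : Z)‖ := by
    have h1 := NonUnitalStarAlgHom.norm_map j hj (e.symm s)
    have h2 : j (e.symm s) = (s : Z) := by
      show ((e (e.symm s) : S) : Z) = s
      rw [e.apply_symm_apply]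
    rw [h2] at h1
    exact h1.symm
  rw [← hnorm]
  exact NonUnitalStarAlgHom.norm_apply_le φ (e.symm s)

end DimDrop

theorem exists_rhom_of_limit {B Z : Type u} [CStarAlgebra B] [CStarAlgebra Z] {G : Type x}
    {D : StarSubalgebra ℂ B} [hD : IsClosed (D : Set B)] {β : G → B ≃⋆ₐ[ℂ] B}
    (hZ : IsJiangSu Z) {ι : Type} (μ : Filter ι) [NeBot μ]
    (h : IsEmpty (Rq Set.univ D β μ →⋆ₐ[ℂ] ℂ)) :
    ∃ (ι : Type) (ν : Filter ι) (_ : NeBot ν), Nonempty (Z →⋆ₐ[ℂ] Rq Set.univ D β ν) := by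
  obtain ⟨p, q, S, hmono, hS, hdense⟩ := hZ.limit
  have h1 : ∀ n, ∃ (ι : Type) (μ : Filter ι) (_ : NeBot μ)
      (φ : S n →⋆ₐ[ℂ] Rq Set.univ D β μ), ∀ s : S n, ‖φ s‖ ≤ ‖(s : Z)‖ := by
    intro n
    obtain ⟨hp, hq, hpq, ⟨e⟩⟩ := hS n
    obtain ⟨ι', μ', hμ', ⟨φ⟩⟩ := exists_dimDrop_rel μ h (p n) (q n) hp hq hpq
    exact ⟨ι', μ', hμ', φ.comp (e.symm : S n →⋆ₐ[ℂ] dimDrop (p n) (q n)),
      norm_dimDrop_le (p n) (q n) e φ⟩
  choose ι' μ' hμ' φ hφ using h1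
  obtain ⟨ν, hν, h⟩ := exists_rhom_of_contractive hmono hdense hμ' φ hφ
  exact ⟨Σ n, ι' n, ν, hν, h⟩

end Vale.Agent.P101.H574
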