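import Vale.Agent.P101.H574.Elliott
import Vale.Agent.P101.H574.Defs

/-! Absorption of the Jiang-Su algebra by inclusions with group actions. -/

open Filter Topology TopologicalSpace
open scoped Kronecker

namespace Vale.Agent.P101.H574

open SeqQuot H413

universe u v

variable {C : Type u} [CStarAlgebra C] {G : Type v} [Group G]

theorem isFixedCentral_iff (α : G →* (C ≃⋆ₐ[ℂ] C)) (A : StarSubalgebra ℂ C) (ω : Filter ℕ)
    (x : ℕ → C) : IsFixedCentral α A ω x ↔ x ∈ relSeq Set.univ A (fun g => α g) ω := by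
  constructor
  · rintro ⟨⟨h1, h2⟩, h3, h4⟩
    exact ⟨⟨h1, fun a _ => h2 a⟩, h3, h4⟩
  · rintro ⟨⟨h1, h2⟩, h3, h4⟩
    exact ⟨⟨h1, fun a => h2 a (Or.inl trivial)⟩, h3, h4⟩

theorem isEmpty_of_not_fixedChar (α : G →* (C ≃⋆ₐ[ℂ] C)) (A : StarSubalgebra ℂ C)
    [hA : IsClosed (A : Set C)] (ω : Filter ℕ)
    (h : ¬ ∃ χ : (ℕ → C) → ℂ, IsFixedCharacter α A ω χ) :
    IsEmpty (Rq Set.univ A (fun g => α g) ω →⋆ₐ[ℂ] ℂ) := by
  classical
  refine ⟨fun χ => h ?_⟩
  have hmem : ∀ x : ℕ → C, IsFixedCentral α A ω x → x ∈ relSeq Set.univ A (fun g => α g) ω :=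
    fun x hx => (isFixedCentral_iff α A ω x).1 hx
  let χ' : (ℕ → C) → ℂ := fun x =>
    if hx : x ∈ relSeq Set.univ A (fun g => α g) ω then χ (Rq.mk ω ⟨x, hx⟩) else 0
  have hχ' : ∀ (x : ℕ → C) (hx : x ∈ relSeq Set.univ A (fun g => α g) ω),
      χ' x = χ (Rq.mk ω ⟨x, hx⟩) := fun x hx => by
    simp only [χ', dif_pos hx]
  refine ⟨χ', ?_, ?_, ?_, ?_, ?_, ?_⟩
  · intro x hx h0
    rw [hχ' x (hmem x hx)]
    have : Rq.mk ω (⟨x, hmem x hx⟩ : relSeq Set.univ A (fun g => α g) ω) =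
        Rq.mk ω (0 : relSeq Set.univ A (fun g => α g) ω) := by
      rw [Rq.mk_eq_iff]
      simpa using h0
    rw [this]
    exact map_zero χ
  · rw [hχ' 1 (one_mem _)]
    exact map_one χ
  · intro x y hx hy
    rw [hχ' x (hmem x hx), hχ' y (hmem y hy), hχ' _ (add_mem (hmem x hx) (hmem y hy)), ← map_add]
    rfl
  · intro x y hx hy
    rw [hχ' x (hmem x hx), hχ' y (hmem y hy), hχ' _ (mul_mem (hmem x hx) (hmem y hy)), ← map_mul]
    rfl
  · intro c x hx
    rw [hχ' x (hmem x hx), hχ' _ ((relSeq Set.univ A (fun g => α g) ω).smul_mem (hmem x hx) c),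
      ← smul_eq_mul, ← map_smul]
    rfl
  · intro x hx
    rw [hχ' x (hmem x hx), hχ' _ (star_mem (hmem x hx)), ← map_star]
    rfl

theorem map_tensorSub {Z B : Type u} [CStarAlgebra Z] [CStarAlgebra B] (i : C →⋆ₐ[ℂ] B)
    (j : Z →⋆ₐ[ℂ] B) (A : StarSubalgebra ℂ C) (β : B ≃⋆ₐ[ℂ] B)
    (h1 : ∀ a ∈ A, β (i a) ∈ tens i j A) (h2 : ∀ z, β (j z) = j z) {x : B}
    (hx : x ∈ tens i j A) : β x ∈ tens i j A := by
  have hβc : Continuous β := AddMonoidHomClass.continuous_of_bound (β : B →⋆ₐ[ℂ] B) 1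
    fun x => by rw [one_mul]; exact norm_equiv_le β x
  have h3 : StarAlgebra.adjoin ℂ (i '' (A : Set C) ∪ Set.range j) ≤
      (tens i j A).comap (β : B →⋆ₐ[ℂ] B) := by
    rw [StarAlgebra.adjoin_le_iff]
    rintro y (⟨a, ha, rfl⟩ | ⟨z, rfl⟩)
    · exact h1 a ha
    · show β (j z) ∈ tens i j A
      rw [h2]
      exact right_mem_tens i j A z
  have h4 : IsClosed {y : B | β y ∈ tens i j A} := (isClosed_tens i j A).preimage hβc
  exact closure_minimal (fun y hy => h3 hy) h4 hx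

theorem zStableOver [SeparableSpace C] [Countable G] (α : G →* (C ≃⋆ₐ[ℂ] C))
    (A : StarSubalgebra ℂ C) (hA : IsClosed (A : Set C)) (hαA : ∀ g, ∀ a ∈ A, α g a ∈ A)
    (ω : Filter ℕ) [NeBot ω] (h : ¬ ∃ χ : (ℕ → C) → ℂ, IsFixedCharacter α A ω χ) :
    IsZStableOver α A := by
  refine ⟨fun Z B _ _ hZ i j β hT => ⟨?_⟩⟩
  obtain ⟨hT, hβi, hβj⟩ := hT
  have hZ' := hZ.isJiangSu
  have hT' := hT.isCStarTensor
  obtain ⟨ι, ν, hν, ⟨Ψ⟩⟩ := exists_rhom_of_limit hZ' ω (isEmpty_of_not_fixedChar α A ω h)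
  have _ : SeparableSpace Z := separable_dimDrop_closure hZ'
  have _ : SeparableSpace B := separable_tensor i j hT'
  have _ : Nontrivial Z := nontrivial_of_isJiangSu hZ'
  obtain ⟨θ, U, w, h1, h2, h3, h4, h5⟩ := elliott_rel i (injective_of_isCStarTensor i j hT')
    (A := A) (D := tens i j A) (fun a ha => left_mem_tens i j ha) (fun g => β g)
    (unitaries_rel hZ' i j hT' hβi hβj ν Ψ)
  have hβc : ∀ g, Continuous (β g) := fun g =>
    AddMonoidHomClass.continuous_of_bound (β g : B →⋆ₐ[ℂ] B) 1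
      fun x => by rw [one_mul]; exact norm_equiv_le (β g) x
  have hUU : ∀ n, star (U n) * U n = 1 := fun n => (Unitary.mem_iff.1 (h2 n).1).1
  have hβUU : ∀ g n, star (β g (U n)) * β g (U n) = 1 := fun g n => by
    rw [← map_star, ← map_mul, hUU, map_one]
  have hβT : ∀ g x, x ∈ tens i j A → β g x ∈ tens i j A := fun g x hx =>
    map_tensorSub i j A (β g) (fun a ha => by rw [hβi]; exact left_mem_tens i j (hαA g a ha))
      (hβj g) hx
  refine ⟨θ, U, w, ⟨h1, h2, h4⟩, fun g => ⟨h3 g, ?_⟩, h5, fun g c => ?_, fun g k => ?_⟩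
  · refine (isClosed_tens i j A).mem_of_tendsto (h5 g) (Eventually.of_forall fun n => ?_)
    exact mul_mem (h2 n).2 (star_mem (hβT g _ (h2 n).2))
  · refine tendsto_nhds_unique (h4 (α g c)) ?_
    have h6 := ((h5 g).mul (((hβc g).tendsto _).comp (h4 c))).mul (h5 g).star
    refine h6.congr fun n => ?_
    simp only [Function.comp_apply, map_mul, map_star, star_mul, star_star, hβi]
    calc U n * star (β g (U n)) * (β g (U n) * i (α g c) * star (β g (U n))) *
          (β g (U n) * star (U n))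
        = U n * (star (β g (U n)) * β g (U n)) * i (α g c) *
          (star (β g (U n)) * β g (U n)) * star (U n) := by simp only [mul_assoc]
      _ = U n * i (α g c) * star (U n) := by rw [hβUU, mul_one, mul_one]
  · refine tendsto_nhds_unique (h5 (g * k)) ?_
    have h6 := (h5 g).mul (((hβc g).tendsto _).comp (h5 k))
    refine h6.congr fun n => ?_
    simp only [Function.comp_apply, map_mul, map_star, StarAlgEquiv.mul_apply]
    calc U n * star (β g (U n)) * (β g (U n) * star (β g (β k (U n))))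
        = U n * (star (β g (U n)) * β g (U n)) * star (β g (β k (U n))) := by
          simp only [mul_assoc]
      _ = U n * star (β g (β k (U n))) := by rw [hβUU, mul_one]

end Vale.Agent.P101.H574
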