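import Vale.Agent.P101.H413.Main

/-! Relative commutants with fixed points: bounded functions with values in a closed subalgebra `D`
of `B` that commute asymptotically with a set `S` and are asymptotically fixed by a family of
automorphisms, modulo null functions. -/

open Filter Topology TopologicalSpace

namespace Vale.Agent.P101.H574

open SeqQuot H413

universe u v w x

section Rel

variable {B : Type u} [CStarAlgebra B]

theorem norm_equiv_le (β : B ≃⋆ₐ[ℂ] B) (x : B) : ‖β x‖ ≤ ‖x‖ :=
  NonUnitalStarAlgHom.norm_apply_le (β : B →⋆ₐ[ℂ] B) x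

variable {G : Type w} (S : Set B) (D : StarSubalgebra ℂ B) (β : G → B ≃⋆ₐ[ℂ] B) {ι : Type v}

/-- Bounded functions with values in `D`, commuting asymptotically with `S` and its adjoints, and
asymptotically fixed by all `β g`. -/
def relSeq (μ : Filter ι) : StarSubalgebra ℂ (ι → B) where
  carrier := {x | x ∈ overSeq S μ ∧ (∀ i, x i ∈ D) ∧
    ∀ g, Tendsto (fun i => ‖β g (x i) - x i‖) μ (𝓝 0)}
  mul_mem' := by
    rintro x y ⟨hx, hxD, hxβ⟩ ⟨hy, hyD, hyβ⟩
    refine ⟨mul_mem hx hy, fun i => mul_mem (hxD i) (hyD i), fun g => ?_⟩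
    obtain ⟨K, hK⟩ := hx.1
    obtain ⟨L, hL⟩ := hy.1
    have h : Tendsto (fun i => K * ‖β g (y i) - y i‖ + ‖β g (x i) - x i‖ * L) μ (𝓝 0) := by
      simpa using ((hyβ g).const_mul K).add ((hxβ g).mul_const L)
    refine squeeze_zero (fun i => norm_nonneg _) (fun i => ?_) h
    have e : β g ((x * y) i) - (x * y) i
        = β g (x i) * (β g (y i) - y i) + (β g (x i) - x i) * y i := by
      simp only [Pi.mul_apply, map_mul]; noncomm_ring
    rw [e]
    refine (norm_add_le _ _).trans (add_le_add ?_ ?_)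
    · exact (norm_mul_le _ _).trans (mul_le_mul_of_nonneg_right
        ((norm_equiv_le _ _).trans (hK i)) (norm_nonneg _))
    · exact (norm_mul_le _ _).trans (mul_le_mul_of_nonneg_left (hL i) (norm_nonneg _))
  add_mem' := by
    rintro x y ⟨hx, hxD, hxβ⟩ ⟨hy, hyD, hyβ⟩
    refine ⟨add_mem hx hy, fun i => add_mem (hxD i) (hyD i), fun g => ?_⟩
    have h : Tendsto (fun i => ‖β g (x i) - x i‖ + ‖β g (y i) - y i‖) μ (𝓝 0) := by
      simpa using (hxβ g).add (hyβ g)
    refine squeeze_zero (fun i => norm_nonneg _) (fun i => ?_) h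
    have e : β g ((x + y) i) - (x + y) i = (β g (x i) - x i) + (β g (y i) - y i) := by
      simp only [Pi.add_apply, map_add]; abel
    rw [e]
    exact norm_add_le _ _
  algebraMap_mem' := by
    intro r
    refine ⟨algebraMap_mem _ r, fun i => algebraMap_mem D r, fun g => ?_⟩
    have : (fun i : ι => ‖β g ((algebraMap ℂ (ι → B) r) i) - (algebraMap ℂ (ι → B) r) i‖)
        = fun _ => (0 : ℝ) := by
      funext i
      rw [Pi.algebraMap_apply, AlgHomClass.commutes, sub_self, norm_zero]
    rw [this]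
    exact tendsto_const_nhds
  star_mem' := by
    rintro x ⟨hx, hxD, hxβ⟩
    refine ⟨star_mem hx, fun i => star_mem (hxD i), fun g => ?_⟩
    refine (hxβ g).congr fun i => ?_
    rw [Pi.star_apply, map_star, ← star_sub, norm_star]

variable {S D β} in
theorem mem_relSeq {μ : Filter ι} {x : ι → B} : x ∈ relSeq S D β μ ↔
    x ∈ overSeq S μ ∧ (∀ i, x i ∈ D) ∧ ∀ g, Tendsto (fun i => ‖β g (x i) - x i‖) μ (𝓝 0) :=
  Iff.rfl

theorem isSeqAlg_relSeq [hD : IsClosed (D : Set B)] (μ : Filter ι) :
    IsSeqAlg μ (relSeq S D β μ) where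
  bdd x hx := hx.1.1
  cut := by
    rintro x ⟨hx, hxD, hxβ⟩ s hs
    refine ⟨(isSeqAlg_overSeq S μ).cut x hx s hs, fun i => ?_, fun g => ?_⟩
    · by_cases hi : i ∈ s
      · rw [Set.indicator_of_mem hi]; exact hxD i
      · rw [Set.indicator_of_notMem hi]; exact zero_mem D
    · refine (hxβ g).congr' ?_
      filter_upwards [hs] with i hi
      rw [Set.indicator_of_mem hi]
  lim := by
    intro x hx
    refine ⟨(isSeqAlg_overSeq S μ).lim x fun ε hε => ?_, fun i => ?_, fun g => ?_⟩
    · obtain ⟨y, hy, h⟩ := hx ε hε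
      exact ⟨y, hy.1, h⟩
    · have h1 : x i ∈ closure (D : Set B) := by
        rw [Metric.mem_closure_iff]
        intro ε hε
        obtain ⟨y, hy, h⟩ := hx (ε / 2) (by linarith)
        refine ⟨y i, hy.2.1 i, ?_⟩
        rw [dist_eq_norm]
        linarith [h i]
      rwa [hD.closure_eq] at h1
    · rw [Metric.tendsto_nhds]
      intro ε hε
      obtain ⟨y, hy, h⟩ := hx (ε / 4) (by linarith)
      filter_upwards [(Metric.tendsto_nhds.mp (hy.2.2 g)) (ε / 2) (by linarith)] with i hi
      rw [dist_zero_right, norm_norm] at hi ⊢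
      have e : β g (x i) - x i = β g (x i - y i) + (β g (y i) - y i) - (x i - y i) := by
        rw [map_sub]; abel
      rw [e]
      have h1 := norm_sub_le (β g (x i - y i) + (β g (y i) - y i)) (x i - y i)
      have h2 := norm_add_le (β g (x i - y i)) (β g (y i) - y i)
      have h3 := norm_equiv_le (β g) (x i - y i)
      have h4 := h i
      linarith

variable [hD : IsClosed (D : Set B)]

/-- The congruence of equality up to null functions. -/
abbrev rcon (μ : Filter ι) : RingCon (relSeq S D β μ) :=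
  nullConG μ (relSeq S D β μ) (isSeqAlg_relSeq S D β μ)

/-- The algebra `(D_μ ∩ C*(S)')^β`. -/
abbrev Rq (μ : Filter ι) : Type (max u v) := (rcon S D β μ).Quotient

noncomputable instance instStarRingRq (μ : Filter ι) : StarRing (Rq S D β μ) where
  star := Quotient.map' star (fun x y h => by
    refine Tendsto.congr (fun i => ?_) h
    show _ = ‖((star x : relSeq S D β μ) : ι → B) i - ((star y : relSeq S D β μ) : ι → B) i‖
    rw [show ((star x : relSeq S D β μ) : ι → B) i - ((star y : relSeq S D β μ) : ι → B) i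
      = star ((x : ι → B) i - (y : ι → B) i) by simp, norm_star])
  star_involutive := by
    rintro ⟨x⟩
    exact congrArg (Quotient.mk'' (s₁ := (rcon S D β μ).toSetoid)) (star_star x)
  star_mul := by
    rintro ⟨x⟩ ⟨y⟩
    exact congrArg (Quotient.mk'' (s₁ := (rcon S D β μ).toSetoid)) (star_mul x y)
  star_add := by
    rintro ⟨x⟩ ⟨y⟩
    exact congrArg (Quotient.mk'' (s₁ := (rcon S D β μ).toSetoid)) (star_add x y)

noncomputable instance instCStarRq (μ : Filter ι) : CStarAlgebra (Rq S D β μ) :=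
  cstar (isSeqAlg_relSeq S D β μ) (rcon S D β μ) (fun _ _ => Iff.rfl) inferInstance
    (fun _ => rfl)

namespace Rq

variable {S D β}

/-- The class of a function. -/
noncomputable def mk (μ : Filter ι) (x : relSeq S D β μ) : Rq S D β μ :=
  ((x : relSeq S D β μ) : (rcon S D β μ).Quotient)

variable (μ : Filter ι)

theorem mk_surjective : Function.Surjective (mk (S := S) (D := D) (β := β) μ) :=
  (rcon S D β μ).mk'_surjective

theorem mk_add (x y : relSeq S D β μ) : mk μ (x + y) = mk μ x + mk μ y := rfl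
theorem mk_mul (x y : relSeq S D β μ) : mk μ (x * y) = mk μ x * mk μ y := rfl
theorem mk_sub (x y : relSeq S D β μ) : mk μ (x - y) = mk μ x - mk μ y := rfl
theorem mk_one : mk μ (1 : relSeq S D β μ) = 1 := rfl
theorem mk_star (x : relSeq S D β μ) : mk μ (star x) = star (mk μ x) := rfl
theorem mk_eq_iff (x y : relSeq S D β μ) : mk μ x = mk μ y ↔
    Tendsto (fun i => ‖(x : ι → B) i - (y : ι → B) i‖) μ (𝓝 0) :=
  (rcon S D β μ).eq

theorem norm_mk (x : relSeq S D β μ) : ‖mk μ x‖ = nrm μ (x : ι → B) :=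
  qnrm_mk (isSeqAlg_relSeq S D β μ) (rcon S D β μ) (fun _ _ => Iff.rfl) x

theorem eventually_norm_lt (x : relSeq S D β μ) {c : ℝ} (h : ‖mk μ x‖ < c) :
    ∀ᶠ i in μ, ‖(x : ι → B) i‖ < c := by
  rw [norm_mk] at h
  exact eventually_lt x.2.1.1 h

end Rq

end Rel

end Vale.Agent.P101.H574
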