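import Vale.Agent.P101.H574.Limit

/-! The subalgebra `A ⊗ Z` of a completion of `C ⊗ Z`. -/

open Filter Topology TopologicalSpace

namespace Vale.Agent.P101.H574

open SeqQuot H413

universe u v w x

variable {C Z B : Type u} [CStarAlgebra C] [CStarAlgebra Z] [CStarAlgebra B]

/-- The closed subalgebra generated by `i(A)` and `j(Z)`. -/
abbrev tens (i : C →⋆ₐ[ℂ] B) (j : Z →⋆ₐ[ℂ] B) (A : StarSubalgebra ℂ C) : StarSubalgebra ℂ B :=
  (StarAlgebra.adjoin ℂ (i '' (A : Set C) ∪ Set.range j)).topologicalClosure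

instance isClosed_tens (i : C →⋆ₐ[ℂ] B) (j : Z →⋆ₐ[ℂ] B) (A : StarSubalgebra ℂ C) :
    IsClosed (tens i j A : Set B) := StarSubalgebra.isClosed_topologicalClosure _

theorem left_mem_tens (i : C →⋆ₐ[ℂ] B) (j : Z →⋆ₐ[ℂ] B) {A : StarSubalgebra ℂ C} {a : C}
    (ha : a ∈ A) : i a ∈ tens i j A :=
  StarSubalgebra.le_topologicalClosure _ (StarAlgebra.subset_adjoin ℂ _ (Or.inl ⟨a, ha, rfl⟩))

theorem right_mem_tens (i : C →⋆ₐ[ℂ] B) (j : Z →⋆ₐ[ℂ] B) (A : StarSubalgebra ℂ C) (z : Z) :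
    j z ∈ tens i j A :=
  StarSubalgebra.le_topologicalClosure _ (StarAlgebra.subset_adjoin ℂ _ (Or.inr ⟨z, rfl⟩))

/-- The products `i a * j z` with `a ∈ A`. -/
def prods (i : C →⋆ₐ[ℂ] B) (j : Z →⋆ₐ[ℂ] B) (A : StarSubalgebra ℂ C) : Set B :=
  {x | ∃ a ∈ A, ∃ z, x = i a * j z}

theorem adjoin_subset_span (i : C →⋆ₐ[ℂ] B) (j : Z →⋆ₐ[ℂ] B) (hc : ∀ a z, Commute (i a) (j z))
    (A : StarSubalgebra ℂ C) :
    ((StarAlgebra.adjoin ℂ (i '' (A : Set C) ∪ Set.range j) : StarSubalgebra ℂ B) : Set B) ⊆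
      (Submodule.span ℂ (prods i j A) : Set B) := by
  have hmul : ∀ x y, x ∈ Submodule.span ℂ (prods i j A) → y ∈ Submodule.span ℂ (prods i j A) →
      x * y ∈ Submodule.span ℂ (prods i j A) := by
    intro x y hx hy
    have h1 : x * y ∈ Submodule.span ℂ (prods i j A) * Submodule.span ℂ (prods i j A) :=
      Submodule.mul_mem_mul hx hy
    rw [Submodule.span_mul_span] at h1
    refine Submodule.span_mono ?_ h1
    rintro _ ⟨_, ⟨a, ha, z, rfl⟩, _, ⟨a', ha', z', rfl⟩, rfl⟩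
    refine ⟨a * a', mul_mem ha ha', z * z', ?_⟩
    rw [map_mul, map_mul]
    calc i a * j z * (i a' * j z') = i a * (j z * i a') * j z' := by noncomm_ring
      _ = i a * i a' * (j z * j z') := by rw [← (hc a' z).eq]; noncomm_ring
  let T : StarSubalgebra ℂ B :=
    { carrier := Submodule.span ℂ (prods i j A)
      mul_mem' := fun {x y} hx hy => hmul x y hx hy
      add_mem' := fun {x y} hx hy => add_mem hx hy
      algebraMap_mem' := fun r => by
        refine Submodule.subset_span ⟨algebraMap ℂ C r, algebraMap_mem A r, 1, ?_⟩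
        rw [map_one, mul_one, AlgHomClass.commutes]
      star_mem' := by
        intro x hx
        change x ∈ Submodule.span ℂ (prods i j A) at hx
        change star x ∈ Submodule.span ℂ (prods i j A)
        induction hx using Submodule.span_induction with
        | mem x h =>
          obtain ⟨a, ha, z, rfl⟩ := h
          refine Submodule.subset_span ⟨star a, star_mem ha, star z, ?_⟩
          rw [star_mul, map_star, map_star, ← map_star, ← map_star i, (hc _ _).eq]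
        | zero => rw [star_zero]; exact zero_mem _
        | add x y _ _ hx hy => rw [star_add]; exact add_mem hx hy
        | smul r x _ hx => rw [star_smul]; exact Submodule.smul_mem _ _ hx }
  have hle : StarAlgebra.adjoin ℂ (i '' (A : Set C) ∪ Set.range j) ≤ T := by
    rw [StarAlgebra.adjoin_le_iff]
    rintro x (⟨a, ha, rfl⟩ | ⟨z, rfl⟩)
    · exact Submodule.subset_span ⟨a, ha, 1, by rw [map_one, mul_one]⟩
    · exact Submodule.subset_span ⟨1, one_mem A, z, by rw [map_one, one_mul]⟩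
  exact fun x hx => hle hx

theorem approx_of_mem (i : C →⋆ₐ[ℂ] B) (j : Z →⋆ₐ[ℂ] B) (hc : ∀ a z, Commute (i a) (j z))
    (A : StarSubalgebra ℂ C) {b : B} (hb : b ∈ tens i j A) {ε : ℝ} (hε : 0 < ε) :
    ∃ (n : ℕ) (a : Fin n → C) (z : Fin n → Z), (∀ k, a k ∈ A) ∧
      ‖b - ∑ k, i (a k) * j (z k)‖ < ε := by
  obtain ⟨x, hx, hbx⟩ := Metric.mem_closure_iff.1 hb ε hε
  obtain ⟨n, f, g, hfg⟩ := (Submodule.mem_span_set' (R := ℂ)).1 (adjoin_subset_span i j hc A hx)
  choose a ha z hz using fun k => (g k).2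
  refine ⟨n, fun k => f k • a k, z, fun k => A.smul_mem (ha k) _, ?_⟩
  have e : ∑ k, i (f k • a k) * j (z k) = x := by
    rw [← hfg]
    refine Finset.sum_congr rfl fun k _ => ?_
    rw [map_smul, smul_mul_assoc, ← hz k]
  rw [e, ← dist_eq_norm]
  exact hbx

theorem tens_top (i : C →⋆ₐ[ℂ] B) (j : Z →⋆ₐ[ℂ] B) (h : IsCStarTensor i j) (b : B) :
    b ∈ tens i j ⊤ := by
  have h1 : Set.range (Algebra.TensorProduct.lift (i : C →ₐ[ℂ] B) (j : Z →ₐ[ℂ] B) h.comm) ⊆
      ((StarAlgebra.adjoin ℂ (i '' ((⊤ : StarSubalgebra ℂ C) : Set C) ∪ Set.range j) :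
        StarSubalgebra ℂ B) : Set B) := by
    rintro _ ⟨t, rfl⟩
    induction t using TensorProduct.induction_on with
    | zero => rw [map_zero]; exact zero_mem _
    | tmul a z =>
      rw [Algebra.TensorProduct.lift_tmul]
      exact mul_mem (StarAlgebra.subset_adjoin ℂ _ (Or.inl ⟨a, trivial, rfl⟩))
        (StarAlgebra.subset_adjoin ℂ _ (Or.inr ⟨z, rfl⟩))
    | add x y hx hy => rw [map_add]; exact add_mem hx hy
  exact closure_mono h1 (h.dense b)

theorem approx (i : C →⋆ₐ[ℂ] B) (j : Z →⋆ₐ[ℂ] B) (h : IsCStarTensor i j)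
    (A : StarSubalgebra ℂ C) (b : B) {ε : ℝ} (hε : 0 < ε) :
    ∃ (n : ℕ) (a : Fin n → C) (z : Fin n → Z), (b ∈ tens i j A → ∀ k, a k ∈ A) ∧
      ‖b - ∑ k, i (a k) * j (z k)‖ < ε := by
  by_cases hb : b ∈ tens i j A
  · obtain ⟨n, a, z, h1, h2⟩ := approx_of_mem i j h.comm A hb hε
    exact ⟨n, a, z, fun _ => h1, h2⟩
  · obtain ⟨n, a, z, -, h2⟩ := approx_of_mem i j h.comm ⊤ (tens_top i j h b) hε
    exact ⟨n, a, z, fun h3 => absurd h3 hb, h2⟩

end Vale.Agent.P101.H574
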