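import Vale.Agent.P101.H574.Tens

/-! The unitaries needed for the relative and equivariant intertwining argument. -/

open Filter Topology TopologicalSpace

namespace Vale.Agent.P101.H574

open SeqQuot H413

universe u v w x

section Maps

variable {C B : Type u} [CStarAlgebra C] [CStarAlgebra B] {G : Type x}
  {A : StarSubalgebra ℂ C} {D : StarSubalgebra ℂ B}
  {α : G → C ≃⋆ₐ[ℂ] C} {β : G → B ≃⋆ₐ[ℂ] B} {ι : Type v} (μ : Filter ι)

theorem rmap_mem (i : C →⋆ₐ[ℂ] B) (hAD : ∀ a ∈ A, i a ∈ D)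
    (hβ : ∀ g c, β g (i c) = i (α g c)) (x : relSeq Set.univ A α μ) :
    (fun k => i ((x : ι → C) k)) ∈ relSeq (Set.range i) D β μ := by
  obtain ⟨⟨⟨K, hK⟩, hx⟩, hxA, hxα⟩ := x.2
  have key : ∀ c : C, Tendsto (fun k => ‖i ((x : ι → C) k) * i c - i c * i ((x : ι → C) k)‖)
      μ (𝓝 0) := by
    intro c
    refine squeeze_zero (fun k => norm_nonneg _) (fun k => ?_) (hx c (Or.inl trivial))
    rw [← map_mul, ← map_mul, ← map_sub]
    exact NonUnitalStarAlgHom.norm_apply_le i _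
  refine ⟨⟨⟨K, fun k => (NonUnitalStarAlgHom.norm_apply_le i _).trans (hK k)⟩, ?_⟩,
    fun k => hAD _ (hxA k), fun g => ?_⟩
  · rintro a (⟨c, rfl⟩ | ⟨c, hc⟩)
    · exact key c
    · have : a = i (star c) := by rw [map_star, hc, star_star]
      rw [this]
      exact key _
  · refine squeeze_zero (fun k => norm_nonneg _) (fun k => ?_) (hxα g)
    rw [hβ, ← map_sub]
    exact NonUnitalStarAlgHom.norm_apply_le i _

theorem rconst_mem {Z : Type u} [CStarAlgebra Z] (i : C →⋆ₐ[ℂ] B) (j : Z →⋆ₐ[ℂ] B)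
    (hc : ∀ a z, Commute (i a) (j z)) (hjD : ∀ z, j z ∈ D) (hβ : ∀ g z, β g (j z) = j z) (z : Z) :
    (fun _ => j z : ι → B) ∈ relSeq (Set.range i) D β μ := by
  have key : ∀ c : C, Tendsto (fun _ : ι => ‖j z * i c - i c * j z‖) μ (𝓝 0) := by
    intro c
    rw [(hc c z).eq, sub_self, norm_zero]
    exact tendsto_const_nhds
  refine ⟨⟨⟨‖j z‖, fun _ => le_rfl⟩, ?_⟩, fun _ => hjD z, fun g => ?_⟩
  · rintro a (⟨c, rfl⟩ | ⟨c, hc'⟩)
    · exact key c
    · have : a = i (star c) := by rw [map_star, hc', star_star]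
      rw [this]
      exact key _
  · change Tendsto (fun _ : ι => ‖β g (j z) - j z‖) μ (𝓝 0)
    rw [hβ, sub_self, norm_zero]
    exact tendsto_const_nhds

variable [hA : IsClosed (A : Set C)] [hD : IsClosed (D : Set B)]

/-- The map induced by a homomorphism. -/
noncomputable def rmap (i : C →⋆ₐ[ℂ] B) (hAD : ∀ a ∈ A, i a ∈ D)
    (hβ : ∀ g c, β g (i c) = i (α g c)) :
    Rq Set.univ A α μ →⋆ₐ[ℂ] Rq (Set.range i) D β μ where
  toFun := Quotient.map' (fun x : relSeq Set.univ A α μ =>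
      (⟨fun k => i ((x : ι → C) k), rmap_mem μ i hAD hβ x⟩ : relSeq (Set.range i) D β μ)) (by
    intro x y h
    have h' : Tendsto (fun k => ‖(x : ι → C) k - (y : ι → C) k‖) μ (𝓝 0) := h
    refine squeeze_zero (fun k => norm_nonneg _) (fun k => ?_) h'
    change ‖i ((x : ι → C) k) - i ((y : ι → C) k)‖ ≤ _
    rw [← map_sub]
    exact NonUnitalStarAlgHom.norm_apply_le i _)
  map_one' := by
    refine congrArg (Rq.mk μ) (Subtype.ext (funext fun k => ?_))
    exact map_one i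
  map_mul' := by
    rintro ⟨x⟩ ⟨y⟩
    refine congrArg (Rq.mk μ) (Subtype.ext (funext fun k => ?_))
    exact map_mul i _ _
  map_zero' := by
    refine congrArg (Rq.mk μ) (Subtype.ext (funext fun k => ?_))
    exact map_zero i
  map_add' := by
    rintro ⟨x⟩ ⟨y⟩
    refine congrArg (Rq.mk μ) (Subtype.ext (funext fun k => ?_))
    exact map_add i _ _
  commutes' := by
    intro r
    refine congrArg (Rq.mk μ) (Subtype.ext (funext fun k => ?_))
    exact (i : C →ₐ[ℂ] B).commutes r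
  map_star' := by
    rintro ⟨x⟩
    refine congrArg (Rq.mk μ) (Subtype.ext (funext fun k => ?_))
    exact map_star i _

/-- Constant functions with values in `j(Z)`. -/
noncomputable def rconst {Z : Type u} [CStarAlgebra Z] (i : C →⋆ₐ[ℂ] B) (j : Z →⋆ₐ[ℂ] B)
    (hc : ∀ a z, Commute (i a) (j z)) (hjD : ∀ z, j z ∈ D) (hβ : ∀ g z, β g (j z) = j z) :
    Z →⋆ₐ[ℂ] Rq (Set.range i) D β μ where
  toFun z := Rq.mk μ ⟨fun _ => j z, rconst_mem μ i j hc hjD hβ z⟩
  map_one' := by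
    refine congrArg (Rq.mk μ) (Subtype.ext (funext fun k => ?_))
    exact map_one j
  map_mul' := by
    intro x y
    refine congrArg (Rq.mk μ) (Subtype.ext (funext fun k => ?_))
    exact map_mul j _ _
  map_zero' := by
    refine congrArg (Rq.mk μ) (Subtype.ext (funext fun k => ?_))
    exact map_zero j
  map_add' := by
    intro x y
    refine congrArg (Rq.mk μ) (Subtype.ext (funext fun k => ?_))
    exact map_add j _ _
  commutes' := by
    intro r
    refine congrArg (Rq.mk μ) (Subtype.ext (funext fun k => ?_))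
    exact (j : Z →ₐ[ℂ] B).commutes r
  map_star' := by
    intro x
    refine congrArg (Rq.mk μ) (Subtype.ext (funext fun k => ?_))
    exact map_star j _

/-- A unitary of `(D_μ ∩ C*(S)')^β` lifts to a function with values in the unitaries of `D`. -/
theorem exists_runitary_lift {S : Set B} (v : Rq S D β μ) (hv : v ∈ unitary (Rq S D β μ)) :
    ∃ V : relSeq S D β μ, (∀ k, (V : ι → B) k ∈ unitary B) ∧ Rq.mk μ V = v := by
  obtain ⟨x, rfl⟩ := Rq.mk_surjective μ v
  rw [Unitary.mem_iff, ← Rq.mk_star, ← Rq.mk_mul, ← Rq.mk_mul, ← Rq.mk_one, Rq.mk_eq_iff,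
    Rq.mk_eq_iff] at hv
  obtain ⟨h1, h2⟩ := hv
  let _ : CStarAlgebra D := StarSubalgebra.cstarAlgebra D
  let x' : bddSeq D ι := ⟨fun k => ⟨(x : ι → B) k, x.2.2.1 k⟩, x.2.1.1⟩
  have hx' : Bq.mk μ x' ∈ unitary (Bq D μ) := by
    rw [Unitary.mem_iff, ← Bq.mk_star, ← Bq.mk_mul, ← Bq.mk_mul, ← Bq.mk_one, Bq.mk_eq_iff,
      Bq.mk_eq_iff]
    exact ⟨h1, h2⟩
  obtain ⟨V, hV, hVx⟩ := Bq.exists_unitary_lift μ (Bq.mk μ x') hx'
  rw [Bq.mk_eq_iff] at hVx
  have hVx' : Tendsto (fun k => ‖(((V : ι → D) k : D) : B) - (x : ι → B) k‖) μ (𝓝 0) := hVx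
  have hmem : (fun k => (((V : ι → D) k : D) : B)) ∈ relSeq S D β μ := by
    refine ⟨⟨V.2, fun a ha => ?_⟩, fun k => ((V : ι → D) k).2, fun g => ?_⟩
    · have h : Tendsto (fun k => ‖(((V : ι → D) k : D) : B) - (x : ι → B) k‖ * (2 * ‖a‖) +
          ‖(x : ι → B) k * a - a * (x : ι → B) k‖) μ (𝓝 0) := by
        simpa using (hVx'.mul_const (2 * ‖a‖)).add (x.2.1.2 a ha)
      refine squeeze_zero (fun k => norm_nonneg _) (fun k => ?_) h
      have e : (((V : ι → D) k : D) : B) * a - a * (((V : ι → D) k : D) : B) =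
          (((((V : ι → D) k : D) : B) - (x : ι → B) k) * a -
            a * ((((V : ι → D) k : D) : B) - (x : ι → B) k)) +
          ((x : ι → B) k * a - a * (x : ι → B) k) := by noncomm_ring
      rw [e]
      refine (norm_add_le _ _).trans (add_le_add_left ?_ _)
      refine (norm_sub_le _ _).trans ?_
      have h3 := norm_mul_le ((((V : ι → D) k : D) : B) - (x : ι → B) k) a
      have h4 := norm_mul_le a ((((V : ι → D) k : D) : B) - (x : ι → B) k)
      linarith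
    · have h : Tendsto (fun k => 2 * ‖(((V : ι → D) k : D) : B) - (x : ι → B) k‖ +
          ‖β g ((x : ι → B) k) - (x : ι → B) k‖) μ (𝓝 0) := by
        simpa using (hVx'.const_mul 2).add (x.2.2.2 g)
      refine squeeze_zero (fun k => norm_nonneg _) (fun k => ?_) h
      have e : β g (((V : ι → D) k : D) : B) - (((V : ι → D) k : D) : B) =
          (β g ((((V : ι → D) k : D) : B) - (x : ι → B) k) -
            ((((V : ι → D) k : D) : B) - (x : ι → B) k)) +
          (β g ((x : ι → B) k) - (x : ι → B) k) := by rw [map_sub]; abel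
      rw [e]
      refine (norm_add_le _ _).trans (add_le_add_left ?_ _)
      refine (norm_sub_le _ _).trans ?_
      have h3 := norm_equiv_le (β g) ((((V : ι → D) k : D) : B) - (x : ι → B) k)
      linarith
  refine ⟨⟨_, hmem⟩, fun k => ?_, ?_⟩
  · have := Unitary.mem_iff.1 (hV k)
    rw [Unitary.mem_iff]
    exact ⟨congrArg Subtype.val this.1, congrArg Subtype.val this.2⟩
  · rw [Rq.mk_eq_iff]
    exact hVx'

end Maps

theorem ev_of_norm {B : Type u} [CStarAlgebra B] {G : Type x} {S : Set B}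
    {D : StarSubalgebra ℂ B} [hD : IsClosed (D : Set B)] {β : G → B ≃⋆ₐ[ℂ] B} {ι : Type v}
    (μ : Filter ι) (V X Y : relSeq S D β μ) (v x y : Rq S D β μ) (hv : Rq.mk μ V = v)
    (hx : x = Rq.mk μ X) (hy : y = Rq.mk μ Y) {δ : ℝ} (h : ‖v * x * star v - y‖ < δ) :
    ∀ᶠ k in μ, ‖(V : ι → B) k * (X : ι → B) k * star ((V : ι → B) k) - (Y : ι → B) k‖ < δ := by
  rw [← hv, hx, hy, ← Rq.mk_star, ← Rq.mk_mul, ← Rq.mk_mul, ← Rq.mk_sub] at h
  exact Rq.eventually_norm_lt μ _ h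

theorem key_est {C B : Type u} [CStarAlgebra C] [CStarAlgebra B] (i : C →⋆ₐ[ℂ] B) {v : B}
    (hv : v ∈ unitary B) {n : ℕ} (a y : Fin n → C) (jz : Fin n → B) (b : B) {δ η : ℝ}
    (hη : 0 ≤ η) (ky : Fin n → ℝ) (h0 : ∀ m, ‖v * i (y m) * star v - jz m‖ ≤ δ)
    (h1 : ∀ m, ‖v * i (a m) - i (a m) * v‖ ≤ η) (hy : ∀ m, ‖y m‖ ≤ ky m) :
    ‖star v * b * v - i (∑ m, a m * y m)‖ ≤
      ‖b - ∑ m, i (a m) * jz m‖ + ((∑ m, ‖a m‖) * δ + η * ∑ m, ky m) := by
  have hvv : star v * v = 1 := (Unitary.mem_iff.mp hv).1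
  have hsv : star v ∈ unitary B := Unitary.star_mem hv
  have e1 : star v * b * v - i (∑ m, a m * y m) =
      star v * (b - ∑ m, i (a m) * jz m) * v +
      ∑ m, (star v * (i (a m) * (jz m - v * i (y m) * star v)) * v +
        star v * (i (a m) * v - v * i (a m)) * i (y m)) := by
    have e2 : ∀ m, star v * (i (a m) * (jz m - v * i (y m) * star v)) * v +
        star v * (i (a m) * v - v * i (a m)) * i (y m) =
        star v * (i (a m) * jz m) * v - i (a m) * i (y m) := by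
      intro m
      calc star v * (i (a m) * (jz m - v * i (y m) * star v)) * v +
            star v * (i (a m) * v - v * i (a m)) * i (y m)
          = star v * (i (a m) * jz m) * v -
            star v * i (a m) * v * i (y m) * (star v * v) +
            (star v * i (a m) * v * i (y m) -
              (star v * v) * i (a m) * i (y m)) := by noncomm_ring
        _ = _ := by rw [hvv]; noncomm_ring
    simp only [e2, Finset.sum_sub_distrib]
    rw [map_sum, mul_sub, sub_mul, Finset.mul_sum, Finset.sum_mul]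
    simp only [map_mul]
    abel
  rw [e1]
  have n1 : ‖star v * (b - ∑ m, i (a m) * jz m) * v‖ = ‖b - ∑ m, i (a m) * jz m‖ := by
    rw [CStarRing.norm_mul_mem_unitary _ hv, CStarRing.norm_mem_unitary_mul _ hsv]
  have n2 : ∀ m, ‖star v * (i (a m) * (jz m - v * i (y m) * star v)) * v +
        star v * (i (a m) * v - v * i (a m)) * i (y m)‖ ≤
      ‖a m‖ * δ + η * ky m := by
    intro m
    refine (norm_add_le _ _).trans (add_le_add ?_ ?_)
    · rw [CStarRing.norm_mul_mem_unitary _ hv, CStarRing.norm_mem_unitary_mul _ hsv]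
      refine (norm_mul_le _ _).trans (mul_le_mul (NonUnitalStarAlgHom.norm_apply_le i _) ?_
        (norm_nonneg _) (norm_nonneg _))
      rw [norm_sub_rev]
      exact h0 m
    · refine (norm_mul_le _ _).trans (mul_le_mul ?_ ?_ (norm_nonneg _) hη)
      · rw [CStarRing.norm_mem_unitary_mul _ hsv, norm_sub_rev]
        exact h1 m
      · exact (NonUnitalStarAlgHom.norm_apply_le i _).trans (hy m)
  refine (norm_add_le _ _).trans (add_le_add n1.le ?_)
  refine (norm_sum_le _ _).trans ((Finset.sum_le_sum fun m _ => n2 m).trans (le_of_eq ?_))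
  rw [Finset.sum_add_distrib, Finset.sum_mul, Finset.mul_sum]

theorem unitaries_rel {C Z B : Type u} [CStarAlgebra C] [CStarAlgebra Z] [CStarAlgebra B]
    {G : Type x} {A : StarSubalgebra ℂ C} [hA : IsClosed (A : Set C)]
    {α : G → C ≃⋆ₐ[ℂ] C} {β : G → B ≃⋆ₐ[ℂ] B} (hZ : IsJiangSu Z)
    (i : C →⋆ₐ[ℂ] B) (j : Z →⋆ₐ[ℂ] B) (h : IsCStarTensor i j)
    (hβi : ∀ g c, β g (i c) = i (α g c)) (hβj : ∀ g z, β g (j z) = j z)
    {ι : Type} (μ : Filter ι) [NeBot μ] (Ψ : Z →⋆ₐ[ℂ] Rq Set.univ A α μ)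
    (S : Finset C) (T : Finset B) (K : Finset G) (ε : ℝ) (hε : 0 < ε) :
    ∃ v ∈ unitary B, v ∈ tens i j A ∧ (∀ c ∈ S, ‖v * i c - i c * v‖ < ε) ∧
      (∀ b ∈ T, ∃ c, (b ∈ tens i j A → c ∈ A) ∧ ‖star v * b * v - i c‖ < ε) ∧
      ∀ g ∈ K, ‖β g v - v‖ < ε := by
  classical
  -- approximations of the elements of `T`
  choose n a z ha hs using fun b => approx i j h A b (ε := ε / 2) (by positivity)
  have hAD : ∀ a ∈ A, i a ∈ tens i j A := fun a ha => left_mem_tens i j ha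
  -- the two homs
  let Φ1 : Z →⋆ₐ[ℂ] Rq (Set.range i) (tens i j A) β μ :=
    rconst μ i j h.comm (right_mem_tens i j A) hβj
  let Φ2 : Z →⋆ₐ[ℂ] Rq (Set.range i) (tens i j A) β μ := (rmap μ i hAD hβi).comp Ψ
  choose y hy using fun z => Rq.mk_surjective μ (Ψ z)
  have hΦ2 : ∀ w, Φ2 w = Rq.mk μ ⟨fun k => i ((y w : ι → C) k), rmap_mem μ i hAD hβi (y w)⟩ := by
    intro w
    change rmap μ i hAD hβi (Ψ w) = _
    rw [← hy w]
    rfl
  have h12 : ∀ x y, Commute (Φ2 x) (Φ1 y) := by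
    intro x y
    rw [hΦ2]
    refine congrArg (Rq.mk μ) (Subtype.ext (funext fun k => ?_))
    exact (h.comm _ _).eq
  have hflip := hZ.half_flip _ Φ2 Φ1 h12
  choose Ky hKy using fun z => (y z).2.1.1
  obtain ⟨M, hM0, hM⟩ : ∃ M : ℝ, 0 ≤ M ∧ ∀ b ∈ T, ∑ m, ‖a b m‖ ≤ M :=
    ⟨∑ b ∈ T, ∑ m, ‖a b m‖, Finset.sum_nonneg fun b _ => Finset.sum_nonneg fun m _ =>
      norm_nonneg _, fun b hb => Finset.single_le_sum (f := fun b => ∑ m, ‖a b m‖)
      (fun b _ => Finset.sum_nonneg fun m _ => norm_nonneg _) hb⟩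
  obtain ⟨L, hL0, hL⟩ : ∃ L : ℝ, 0 ≤ L ∧ ∀ b ∈ T, ∑ m, |Ky (z b m)| ≤ L :=
    ⟨∑ b ∈ T, ∑ m, |Ky (z b m)|, Finset.sum_nonneg fun b _ => Finset.sum_nonneg fun m _ =>
      abs_nonneg _, fun b hb => Finset.single_le_sum (f := fun b => ∑ m, |Ky (z b m)|)
      (fun b _ => Finset.sum_nonneg fun m _ => abs_nonneg _) hb⟩
  obtain ⟨v', hv', hv'S⟩ := hflip (T.biUnion fun b => Finset.univ.image (z b))
    (ε / (4 * (M + 1))) (by positivity)
  obtain ⟨V, hVu, hVv⟩ := exists_runitary_lift μ v' hv'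
  have hev0 : ∀ᶠ k in μ, ∀ b ∈ T, ∀ m,
      ‖(V : ι → B) k * i ((y (z b m) : ι → C) k) * star ((V : ι → B) k) - j (z b m)‖ <
        ε / (4 * (M + 1)) := by
    refine (Finset.eventually_all T).2 fun b hb => Filter.eventually_all.2 fun m => ?_
    have h1 := hv'S (z b m) (Finset.mem_biUnion.2 ⟨b, hb, Finset.mem_image.2
      ⟨m, Finset.mem_univ _, rfl⟩⟩)
    exact ev_of_norm μ V _ _ v' _ _ hVv (hΦ2 (z b m)) rfl h1
  have hcomm : ∀ c, ∀ δ : ℝ, 0 < δ →
      ∀ᶠ k in μ, ‖(V : ι → B) k * i c - i c * (V : ι → B) k‖ < δ := by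
    intro c δ hδ
    filter_upwards [(Metric.tendsto_nhds.1 (V.2.1.2 (i c) (Or.inl ⟨c, rfl⟩))) δ hδ] with k hk
    rwa [dist_zero_right, norm_norm] at hk
  have hev1 : ∀ᶠ k in μ, ∀ c ∈ S, ‖(V : ι → B) k * i c - i c * (V : ι → B) k‖ < ε :=
    (Finset.eventually_all S).2 fun c _ => hcomm c ε hε
  have hev2 : ∀ᶠ k in μ, ∀ b ∈ T, ∀ m,
      ‖(V : ι → B) k * i (a b m) - i (a b m) * (V : ι → B) k‖ < ε / (4 * (L + 1)) :=
    (Finset.eventually_all T).2 fun b _ => Filter.eventually_all.2 fun m =>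
      hcomm (a b m) _ (by positivity)
  have hev3 : ∀ᶠ k in μ, ∀ g ∈ K, ‖β g ((V : ι → B) k) - (V : ι → B) k‖ < ε := by
    refine (Finset.eventually_all K).2 fun g _ => ?_
    filter_upwards [(Metric.tendsto_nhds.1 (V.2.2.2 g)) ε hε] with k hk
    rwa [dist_zero_right, norm_norm] at hk
  obtain ⟨k, ⟨hk0, hk1⟩, hk2, hk3⟩ := ((hev0.and hev1).and (hev2.and hev3)).exists
  refine ⟨(V : ι → B) k, hVu k, V.2.2.1 k, hk1, fun b hb => ?_, hk3⟩
  refine ⟨∑ m, a b m * (y (z b m) : ι → C) k, fun hbD => sum_mem fun m _ =>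
    mul_mem (ha b hbD m) ((y (z b m)).2.2.1 k), ?_⟩
  have n1 := key_est i (hVu k) (a b) (fun m => (y (z b m) : ι → C) k) (fun m => j (z b m)) b
    (δ := ε / (4 * (M + 1))) (η := ε / (4 * (L + 1))) (by positivity)
    (fun m => |Ky (z b m)|) (fun m => (hk0 b hb m).le) (fun m => (hk2 b hb m).le)
    (fun m => (hKy _ k).trans (le_abs_self _))
  have n6 : (∑ m, ‖a b m‖) * (ε / (4 * (M + 1))) ≤ ε / 4 := by
    calc (∑ m, ‖a b m‖) * (ε / (4 * (M + 1))) ≤ (M + 1) * (ε / (4 * (M + 1))) :=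
          mul_le_mul_of_nonneg_right (by linarith [hM b hb]) (by positivity)
      _ = ε / 4 := by field_simp
  have n7 : (ε / (4 * (L + 1))) * ∑ m, |Ky (z b m)| ≤ ε / 4 := by
    calc (ε / (4 * (L + 1))) * ∑ m, |Ky (z b m)| ≤ (ε / (4 * (L + 1))) * (L + 1) :=
          mul_le_mul_of_nonneg_left (by linarith [hL b hb]) (by positivity)
      _ = ε / 4 := by field_simp
  have n8 := hs b
  refine n1.trans_lt ?_
  linarith

end Vale.Agent.P101.H574
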